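import Vale.Agent.P319.S2.H510.Defs

/-! P319, block S2: the relative star inequality. -/

namespace Vale.Agent.P319.S2

open Finset Matrix Vale.Agent.P319.SC Vale.Agent.P319.SC.H323 Vale.Agent.P319.SC.H235

set_option linter.all false

variable {V ι : Type} [Fintype V] [DecidableEq V] [DecidableEq ι] {m k : ℕ}

/-- sums over products of fibres -/
theorem fib2 {α : Type*} [DecidableEq α] (P P' : Finset V) (F : V → α) (G H : V → V → ℝ)
    (h : ∀ z ∈ P, ∀ t ∈ P', |∑ a ∈ P.filter (fun a => F a = F z),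
      ∑ c ∈ P'.filter (fun c => F c = F t), G a c| ≤
        ∑ a ∈ P.filter (fun a => F a = F z), ∑ c ∈ P'.filter (fun c => F c = F t), H a c) :
    |∑ z ∈ P, ∑ t ∈ P', G z t| ≤ ∑ z ∈ P, ∑ t ∈ P', H z t := by
  have e : ∀ K : V → V → ℝ, ∑ z ∈ P, ∑ t ∈ P', K z t =
      ∑ c ∈ P.image F, ∑ c' ∈ P'.image F, ∑ z ∈ P.filter (fun z => F z = c),
        ∑ t ∈ P'.filter (fun t => F t = c'), K z t := by
    intro K
    rw [← Finset.sum_fiberwise_of_maps_to (fun z hz => mem_image_of_mem F hz)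
      (fun z => ∑ t ∈ P', K z t)]
    refine Finset.sum_congr rfl fun c _ => ?_
    calc ∑ z ∈ P.filter (fun z => F z = c), ∑ t ∈ P', K z t
        = ∑ z ∈ P.filter (fun z => F z = c), ∑ c' ∈ P'.image F,
            ∑ t ∈ P'.filter (fun t => F t = c'), K z t :=
          Finset.sum_congr rfl fun z _ => (Finset.sum_fiberwise_of_maps_to
            (fun t ht => mem_image_of_mem F ht) (fun t => K z t)).symm
      _ = _ := Finset.sum_comm
  rw [e G, e H]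
  refine (Finset.abs_sum_le_sum_abs _ _).trans (Finset.sum_le_sum fun c hc => ?_)
  refine (Finset.abs_sum_le_sum_abs _ _).trans (Finset.sum_le_sum fun c' hc' => ?_)
  obtain ⟨z, hz, rfl⟩ := mem_image.1 hc
  obtain ⟨t, ht, rfl⟩ := mem_image.1 hc'
  exact h z hz t ht

theorem cls_ff (𝒟 : Cfg V ι (k + 2)) (hk : 1 ≤ k) (v v' z : V) :
    ((𝒟.fix v).fix v').cls (((𝒟.fix v).fix v').c1 z) = C3 𝒟 v v' z := by
  ext t
  rw [Cfg.mem_cls, fixfix_c1 𝒟 hk, fixfix_c1 𝒟 hk, C3, mem_filter]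
  simp

theorem mem_C3 (𝒟 : Cfg V ι k) (v v' z t : V) : t ∈ C3 𝒟 v v' z ↔ 𝒟.c3 v v' t = 𝒟.c3 v v' z := by
  simp [C3]

theorem self_mem_C3 (𝒟 : Cfg V ι k) (v v' z : V) : z ∈ C3 𝒟 v v' z := (mem_C3 _ _ _ _ _).2 rfl

theorem C3_pos (𝒟 : Cfg V ι k) (v v' z : V) : 0 < (C3 𝒟 v v' z).card :=
  card_pos.2 ⟨z, self_mem_C3 𝒟 v v' z⟩

theorem C3_sub (𝒟 : Cfg V ι k) (hk : 3 ≤ k) (v v' z : V) : C3 𝒟 v v' z ⊆ 𝒟.cls (𝒟.c1 z) := by
  intro t ht
  rw [mem_C3] at ht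
  exact (𝒟.mem_cls _ _).2 (𝒟.c1_of_c2 (by omega) (𝒟.c3_sub hk ht).2.1).2

theorem filt_C3 (𝒟 : Cfg V ι k) (hk : 3 ≤ k) {v v' z x : V} (hz : z ∈ 𝒟.cls (𝒟.c1 x)) :
    (𝒟.cls (𝒟.c1 x)).filter (fun t => 𝒟.c3 v v' t = 𝒟.c3 v v' z) = C3 𝒟 v v' z := by
  ext t
  rw [mem_filter, mem_C3]
  refine ⟨fun h => h.2, fun h => ⟨?_, h⟩⟩
  have h1 := C3_sub 𝒟 hk v v' z ((mem_C3 _ _ _ _ _).2 h)
  rw [𝒟.mem_cls] at h1 hz ⊢
  exact h1.trans hz

/-- the form over a pair of classes over two points -/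
theorem box2 (𝒟 : Cfg V ι (k + 2)) (hk : 3 ≤ k) {D : ℕ}
    (hD2 : ∀ v v', BigRank ((𝒟.fix v).fix v') D) {f : V → V → V → ℝ} (hf : Inv3F 𝒟 f)
    (hf2 : ∀ v a c, |f v a c| ≤ 2) (v v' z t : V) {w u : V → ℝ} (hw : ∀ a, |w a| ≤ 1)
    (hu : ∀ a, |u a| ≤ 1) :
    Real.sqrt D * |∑ a ∈ C3 𝒟 v v' z, ∑ c ∈ C3 𝒟 v v' t, w a * (f v a c * f v' a c) * u c| ≤
      Real.sqrt D * |∑ a ∈ C3 𝒟 v v' z, ∑ c ∈ C3 𝒟 v v' t, f v a c * f v' a c| +
        4 * (((C3 𝒟 v v' z).card : ℝ) * (C3 𝒟 v v' t).card) := by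
  set ℰ := (𝒟.fix v).fix v' with hℰ
  have hE0 : 0 ≤ Real.sqrt D := Real.sqrt_nonneg _
  have hMi : ℰ.Inv2 (fun a c => f v a c * f v' a c) := by
    intro a c a' c' h
    rw [fixfix_c2 𝒟 (by omega), fixfix_c2 𝒟 (by omega)] at h
    have h4 := 𝒟.c4_sub (by omega) h
    simp only
    rw [hf _ _ _ _ _ _ h4.2.2.1, hf _ _ _ _ _ _ h4.2.2.2]
  rw [← cls_ff 𝒟 (by omega) v v' z, ← cls_ff 𝒟 (by omega) v v' t]
  have hc1 := C3_pos 𝒟 v v' z
  have hc2 := C3_pos 𝒟 v v' t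
  rw [← cls_ff 𝒟 (by omega) v v' z] at hc1
  rw [← cls_ff 𝒟 (by omega) v v' t] at hc2
  set P := ℰ.cls (ℰ.c1 z) with hP
  set Q := ℰ.cls (ℰ.c1 t) with hQ
  have hp : (0 : ℝ) < P.card := by exact_mod_cast hc1
  have hq : (0 : ℝ) < Q.card := by exact_mod_cast hc2
  have sq1 : ∀ z : ℝ, |z| ≤ 1 → z ^ 2 ≤ 1 := by
    intro z hz
    rw [← sq_abs]
    nlinarith [abs_nonneg z]
  have hw2 : ∑ x ∈ P, w x ^ 2 ≤ P.card := by
    have := Finset.sum_le_card_nsmul P (fun x => w x ^ 2) 1 fun x _ => sq1 _ (hw x)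
    rwa [nsmul_eq_mul, mul_one] at this
  have hu2 : ∑ x ∈ Q, u x ^ 2 ≤ Q.card := by
    have := Finset.sum_le_card_nsmul Q (fun x => u x ^ 2) 1 fun x _ => sq1 _ (hu x)
    rwa [nsmul_eq_mul, mul_one] at this
  have hw3 : |∑ x ∈ P, w x| ≤ P.card := by
    refine (Finset.abs_sum_le_sum_abs _ _).trans ?_
    have := Finset.sum_le_card_nsmul P (fun x => |w x|) 1 fun x _ => hw x
    rwa [nsmul_eq_mul, mul_one] at this
  have hu3 : |∑ x ∈ Q, u x| ≤ Q.card := by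
    refine (Finset.abs_sum_le_sum_abs _ _).trans ?_
    have := Finset.sum_le_card_nsmul Q (fun x => |u x|) 1 fun x _ => hu x
    rwa [nsmul_eq_mul, mul_one] at this
  have hMsq : ∀ x y, (f v x y * f v' x y) ^ 2 ≤ 16 := by
    intro x y
    have h1 := hf2 v x y
    have h2 := hf2 v' x y
    rw [mul_pow, ← sq_abs (f v x y), ← sq_abs (f v' x y)]
    have a1 : |f v x y| ^ 2 ≤ 4 := by nlinarith [abs_nonneg (f v x y)]
    have a2 : |f v' x y| ^ 2 ≤ 4 := by nlinarith [abs_nonneg (f v' x y)]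
    calc |f v x y| ^ 2 * |f v' x y| ^ 2 ≤ 4 * 4 := mul_le_mul a1 a2 (by positivity) (by norm_num)
      _ = 16 := by norm_num
  have key := mix_abs ℰ hk (hD2 v v') hMi (ℰ.c1 z) (ℰ.c1 t) w u
    (K := 4 * ((P.card : ℝ) * Q.card)) (by positivity) (by
      have h4 : ∑ x ∈ P, ∑ y ∈ Q, (f v x y * f v' x y) ^ 2 ≤ (P.card : ℝ) * (Q.card * 16) :=
        sum2_le P Q _ fun x _ y _ => hMsq x y
      have h5 : 0 ≤ ∑ x ∈ P, w x ^ 2 := Finset.sum_nonneg fun x _ => sq_nonneg _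
      have h6 : 0 ≤ ∑ x ∈ Q, u x ^ 2 := Finset.sum_nonneg fun x _ => sq_nonneg _
      calc _ ≤ ((P.card : ℝ) * (Q.card * 16)) * ((P.card : ℝ) * Q.card) := by
            refine mul_le_mul h4 (mul_le_mul hw2 hu2 h6 hp.le) (by positivity)
              (by positivity)
        _ = (4 * ((P.card : ℝ) * Q.card)) ^ 2 := by ring)
  rw [← hP, ← hQ] at key
  set s₀ : ℝ := ∑ x ∈ P, ∑ y ∈ Q, f v x y * f v' x y with hs₀
  set Z : ℝ := ∑ x ∈ P, ∑ y ∈ Q, w x * (f v x y * f v' x y) * u y with hZ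
  set Y : ℝ := s₀ / (P.card * Q.card) * ((∑ x ∈ P, w x) * ∑ y ∈ Q, u y) with hY
  have hYs : |Y| ≤ |s₀| := by
    rw [hY, abs_mul, abs_div, abs_mul (∑ x ∈ P, w x)]
    rw [abs_of_pos (mul_pos hp hq)]
    calc |s₀| / (P.card * Q.card) * (|∑ x ∈ P, w x| * |∑ y ∈ Q, u y|)
        ≤ |s₀| / (P.card * Q.card) * (P.card * Q.card) := by
          refine mul_le_mul_of_nonneg_left ?_ (by positivity)
          exact mul_le_mul hw3 hu3 (abs_nonneg _) hp.le
      _ = |s₀| := by field_simp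
  have h8 : |Z| ≤ |Y| + |Z - Y| := by
    have : Z = Y + (Z - Y) := by ring
    calc |Z| = |Y + (Z - Y)| := by rw [← this]
      _ ≤ _ := abs_add_le _ _
  calc Real.sqrt D * |Z| ≤ Real.sqrt D * (|Y| + |Z - Y|) := mul_le_mul_of_nonneg_left h8 hE0
    _ = Real.sqrt D * |Y| + Real.sqrt D * |Z - Y| := by ring
    _ ≤ _ := add_le_add (mul_le_mul_of_nonneg_left hYs hE0) key

/-- the sum over the light points and the others -/
theorem good_pair (𝒟 : Cfg V ι (k + 2)) (hk : 3 ≤ k) {D : ℕ}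
    (hD2 : ∀ v v', BigRank ((𝒟.fix v).fix v') D) {f : V → V → V → ℝ} (hf : Inv3F 𝒟 f)
    (hf2 : ∀ v a c, |f v a c| ≤ 2) {x y : V} {η l : ℝ} (hη : 0 ≤ η)
    {L L' : V → V → V → Prop} (hL : Inv3R 𝒟 L) (hL' : Inv3R 𝒟 L') {v v' : V}
    (h1 : ∑ z ∈ 𝒟.cls (𝒟.c1 x), chi (L v v' z) ≤ l * (𝒟.cls (𝒟.c1 x)).card)
    (h2 : ∑ z ∈ 𝒟.cls (𝒟.c1 y), chi (L' v v' z) ≤ l * (𝒟.cls (𝒟.c1 y)).card)
    (h3 : ∀ z ∈ 𝒟.cls (𝒟.c1 x), ∀ t ∈ 𝒟.cls (𝒟.c1 y), ¬ L v v' z → ¬ L' v v' t →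
      |∑ a ∈ C3 𝒟 v v' z, ∑ c ∈ C3 𝒟 v v' t, f v a c * f v' a c| ≤
        η * (((C3 𝒟 v v' z).card : ℝ) * (C3 𝒟 v v' t).card))
    {w u : V → ℝ} (hw : ∀ a, |w a| ≤ 1) (hu : ∀ a, |u a| ≤ 1) :
    Real.sqrt D * |∑ a ∈ 𝒟.cls (𝒟.c1 x), ∑ c ∈ 𝒟.cls (𝒟.c1 y),
      w a * (f v a c * f v' a c) * u c| ≤
      (Real.sqrt D * (η + 8 * l) + 4) *
        (((𝒟.cls (𝒟.c1 x)).card : ℝ) * (𝒟.cls (𝒟.c1 y)).card) := by
  set P := 𝒟.cls (𝒟.c1 x) with hP
  set P' := 𝒟.cls (𝒟.c1 y) with hP'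
  set E := Real.sqrt D with hE
  have hE0 : 0 ≤ E := Real.sqrt_nonneg _
  have key := fib2 P P' (fun z => 𝒟.c3 v v' z)
    (fun a c => E * (w a * (f v a c * f v' a c) * u c))
    (fun a c => E * (η + 4 * chi (L v v' a) + 4 * chi (L' v v' c)) + 4) (by
      intro z hz t ht
      rw [hP, hP', filt_C3 𝒟 (by omega) hz, filt_C3 𝒟 (by omega) ht]
      simp only [← Finset.mul_sum]
      rw [abs_mul, abs_of_nonneg hE0]
      refine (box2 𝒟 hk hD2 hf hf2 v v' z t hw hu).trans ?_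
      have hM4 : |∑ a ∈ C3 𝒟 v v' z, ∑ c ∈ C3 𝒟 v v' t, f v a c * f v' a c| ≤
          4 * (((C3 𝒟 v v' z).card : ℝ) * (C3 𝒟 v v' t).card) := by
        refine (Finset.abs_sum_le_sum_abs _ _).trans ?_
        refine (Finset.sum_le_sum fun a _ => Finset.abs_sum_le_sum_abs _ _).trans ?_
        refine (sum2_le _ _ _ (c := 4) fun a _ c _ => ?_).trans (le_of_eq (by ring))
        have a1 := hf2 v a c
        have a2 := hf2 v' a c
        rw [abs_mul]
        nlinarith [abs_nonneg (f v a c), abs_nonneg (f v' a c)]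
      have hb : |∑ a ∈ C3 𝒟 v v' z, ∑ c ∈ C3 𝒟 v v' t, f v a c * f v' a c| ≤
          (η + 4 * chi (L v v' z) + 4 * chi (L' v v' t)) *
            (((C3 𝒟 v v' z).card : ℝ) * (C3 𝒟 v v' t).card) := by
        by_cases c1 : L v v' z
        · refine hM4.trans (mul_le_mul_of_nonneg_right ?_ (by positivity))
          rw [chi_pos c1]
          have := chi_nonneg (L' v v' t)
          linarith
        · by_cases c2 : L' v v' t
          · refine hM4.trans (mul_le_mul_of_nonneg_right ?_ (by positivity))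
            rw [chi_pos c2]
            have := chi_nonneg (L v v' z)
            linarith
          · rw [chi_neg c1, chi_neg c2, mul_zero, add_zero, add_zero]
            exact h3 z hz t ht c1 c2
      have hsum : ∑ a ∈ C3 𝒟 v v' z, ∑ c ∈ C3 𝒟 v v' t,
          (E * (η + 4 * chi (L v v' a) + 4 * chi (L' v v' c)) + 4) =
          (E * (η + 4 * chi (L v v' z) + 4 * chi (L' v v' t)) + 4) *
            (((C3 𝒟 v v' z).card : ℝ) * (C3 𝒟 v v' t).card) := by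
        have e1 : ∀ a ∈ C3 𝒟 v v' z, ∀ c ∈ C3 𝒟 v v' t,
            (E * (η + 4 * chi (L v v' a) + 4 * chi (L' v v' c)) + 4) =
              (E * (η + 4 * chi (L v v' z) + 4 * chi (L' v v' t)) + 4) := by
          intro a ha c hc
          rw [mem_C3] at ha hc
          rw [chi_congr (hL _ _ _ _ _ _ ha), chi_congr (hL' _ _ _ _ _ _ hc)]
        rw [Finset.sum_congr rfl fun a ha => Finset.sum_congr rfl fun c hc => e1 a ha c hc]
        simp only [Finset.sum_const, nsmul_eq_mul]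
        ring
      rw [hsum, add_mul]
      refine add_le_add ?_ le_rfl
      rw [mul_assoc]
      exact mul_le_mul_of_nonneg_left hb hE0)
  simp only [← Finset.mul_sum] at key
  rw [abs_mul, abs_of_nonneg hE0] at key
  refine key.trans ?_
  have e2 : ∑ a ∈ P, ∑ c ∈ P', (E * (η + 4 * chi (L v v' a) + 4 * chi (L' v v' c)) + 4) =
      (E * η + 4) * ((P.card : ℝ) * P'.card) + 4 * E * ((∑ a ∈ P, chi (L v v' a)) * P'.card) +
        4 * E * ((P.card : ℝ) * ∑ c ∈ P', chi (L' v v' c)) := by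
    have e3 : ∀ a ∈ P, ∑ c ∈ P', (E * (η + 4 * chi (L v v' a) + 4 * chi (L' v v' c)) + 4) =
        (E * η + 4) * P'.card + 4 * E * (chi (L v v' a) * P'.card) +
          4 * E * ∑ c ∈ P', chi (L' v v' c) := by
      intro a _
      have e4 : ∀ c ∈ P', (E * (η + 4 * chi (L v v' a) + 4 * chi (L' v v' c)) + 4) =
          ((E * η + 4) + 4 * E * chi (L v v' a)) + 4 * E * chi (L' v v' c) := by
        intro c _; ring
      rw [Finset.sum_congr rfl e4, Finset.sum_add_distrib, Finset.sum_const, nsmul_eq_mul,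
        ← Finset.mul_sum]
      ring
    rw [Finset.sum_congr rfl e3, Finset.sum_add_distrib, Finset.sum_add_distrib, Finset.sum_const,
      Finset.sum_const, nsmul_eq_mul, nsmul_eq_mul, ← Finset.mul_sum, ← Finset.sum_mul]
    ring
  rw [e2]
  have p1 : 4 * E * ((∑ a ∈ P, chi (L v v' a)) * P'.card) ≤ 4 * E * ((l * P.card) * P'.card) :=
    mul_le_mul_of_nonneg_left (mul_le_mul_of_nonneg_right h1 (by positivity)) (by positivity)
  have p2 : 4 * E * ((P.card : ℝ) * ∑ c ∈ P', chi (L' v v' c)) ≤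
      4 * E * ((P.card : ℝ) * (l * P'.card)) :=
    mul_le_mul_of_nonneg_left (mul_le_mul_of_nonneg_left h2 (by positivity)) (by positivity)
  calc _ ≤ (E * η + 4) * ((P.card : ℝ) * P'.card) + 4 * E * ((l * P.card) * P'.card) +
        4 * E * ((P.card : ℝ) * (l * P'.card)) := add_le_add (add_le_add le_rfl p1) p2
    _ = _ := by ring

theorem sum4_comm' (P P' : Finset V) (G : V → V → V → V → ℝ) :
    ∑ z ∈ P, ∑ t ∈ P', ∑ v ∈ P, ∑ v' ∈ P, G z t v v' =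
      ∑ v ∈ P, ∑ v' ∈ P, ∑ z ∈ P, ∑ t ∈ P', G z t v v' := by
  calc ∑ z ∈ P, ∑ t ∈ P', ∑ v ∈ P, ∑ v' ∈ P, G z t v v'
      = ∑ z ∈ P, ∑ v ∈ P, ∑ t ∈ P', ∑ v' ∈ P, G z t v v' :=
        Finset.sum_congr rfl fun x _ => Finset.sum_comm
    _ = ∑ v ∈ P, ∑ z ∈ P, ∑ t ∈ P', ∑ v' ∈ P, G z t v v' := Finset.sum_comm
    _ = ∑ v ∈ P, ∑ z ∈ P, ∑ v' ∈ P, ∑ t ∈ P', G z t v v' :=
        Finset.sum_congr rfl fun v _ => Finset.sum_congr rfl fun x _ => Finset.sum_comm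
    _ = ∑ v ∈ P, ∑ v' ∈ P, ∑ z ∈ P, ∑ t ∈ P', G z t v v' :=
        Finset.sum_congr rfl fun v _ => Finset.sum_comm

/-- **piece 6** -/
theorem relstar : RelStarStmt := by
  intro V ι _ _ _ k 𝒟 hk D hD hD2 f hf hf2 𝒯 h𝒯 x y η b l hη hb hl Bad L L' H A B hA hB
  set P := 𝒟.cls (𝒟.c1 x) with hP
  set P' := 𝒟.cls (𝒟.c1 y) with hP'
  set E := Real.sqrt D with hE
  have hE0 : 0 ≤ E := Real.sqrt_nonneg _
  set p : ℝ := (P.card : ℝ) with hp
  set p' : ℝ := (P'.card : ℝ) with hp'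
  have hp0 : 0 < p := by rw [hp]; exact_mod_cast 𝒟.cls_pos x
  have hp'0 : 0 < p' := by rw [hp']; exact_mod_cast 𝒟.cls_pos y
  set g : V → V → V → ℝ := fun v z t => A v z * B v t * f v z t with hg
  have hg2 : ∀ v z t, |g v z t| ≤ 2 := by
    intro v z t
    simp only [hg]
    rw [abs_mul, abs_mul]
    have h1 := mul_le_one₀ (hA v z) (abs_nonneg _) (hB v t)
    have h2 := hf2 v z t
    have h3 := abs_nonneg (f v z t)
    have h4 : 0 ≤ |A v z| * |B v t| := by positivity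
    nlinarith
  set c : ℝ := cnt P P 𝒯 with hc
  have hc0 : 0 ≤ c := cnt_nonneg _ _ _
  -- step A
  have stepA : ∀ z t, E * (c / (p * p) * (∑ v ∈ P, g v z t) ^ 2) ≤
      E * (∑ v ∈ P, ∑ v' ∈ P, g v z t * chi (𝒯 v v') * g v' z t) + 4 * p ^ 2 := by
    intro z t
    have h1 := mix_abs 𝒟 (by omega) hD (M := fun a b => chi (𝒯 a b))
      (fun a b a' b' h => chi_congr (h𝒯 _ _ _ _ h)) (𝒟.c1 x) (𝒟.c1 x)
      (fun v => g v z t) (fun v => g v z t) (K := 4 * p ^ 2) (by positivity) (by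
        have h2 : ∑ a ∈ 𝒟.cls (𝒟.c1 x), ∑ b ∈ 𝒟.cls (𝒟.c1 x), chi (𝒯 a b) ^ 2 ≤ p * (p * 1) :=
          sum2_le _ _ _ fun a _ b _ => by rw [chi_sq]; exact chi_le_one _
        have h3 : ∑ a ∈ 𝒟.cls (𝒟.c1 x), g a z t ^ 2 ≤ p * 4 := by
          rw [hp, ← nsmul_eq_mul]
          refine Finset.sum_le_card_nsmul _ _ _ fun a _ => ?_
          have := hg2 a z t
          rw [← sq_abs]
          nlinarith [abs_nonneg (g a z t)]
        have h4 : 0 ≤ ∑ a ∈ 𝒟.cls (𝒟.c1 x), g a z t ^ 2 := Finset.sum_nonneg fun a _ => sq_nonneg _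
        calc _ ≤ (p * (p * 1)) * ((p * 4) * (p * 4)) := by
              refine mul_le_mul h2 (mul_le_mul h3 h3 h4 (by positivity)) (by positivity)
                (by positivity)
          _ = (4 * p ^ 2) ^ 2 := by ring)
    have h2 := mul_le_mul_of_nonneg_left (neg_abs_le (∑ v ∈ P, ∑ v' ∈ P,
      g v z t * chi (𝒯 v v') * g v' z t - c / (p * p) * ((∑ v ∈ P, g v z t) *
        (∑ v ∈ P, g v z t)))) hE0
    have h3 : E * |∑ v ∈ P, ∑ v' ∈ P, g v z t * chi (𝒯 v v') * g v' z t -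
        c / (p * p) * ((∑ v ∈ P, g v z t) * (∑ v ∈ P, g v z t))| ≤ 4 * p ^ 2 := h1
    rw [pow_two (∑ v ∈ P, g v z t)]
    linarith
  set W : V → V → ℝ := fun v v' => ∑ z ∈ P, ∑ t ∈ P',
    (A v z * A v' z) * (f v z t * f v' z t) * (B v t * B v' t) with hW
  have hsumW : ∑ z ∈ P, ∑ t ∈ P', ∑ v ∈ P, ∑ v' ∈ P, g v z t * chi (𝒯 v v') * g v' z t =
      ∑ v ∈ P, ∑ v' ∈ P, chi (𝒯 v v') * W v v' := by
    rw [sum4_comm']
    refine Finset.sum_congr rfl fun v _ => Finset.sum_congr rfl fun v' _ => ?_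
    simp only [hW, Finset.mul_sum]
    refine Finset.sum_congr rfl fun z _ => Finset.sum_congr rfl fun t _ => ?_
    simp only [hg]
    ring
  have hWb : ∀ v ∈ P, ∀ v' ∈ P, E * (chi (𝒯 v v') * W v v') ≤
      (E * (η + 8 * l) + 4) * (p * p') + E * (4 * (p * p')) * chi (Bad v v') := by
    intro v hv v' hv'
    have hrhs : 0 ≤ (E * (η + 8 * l) + 4) * (p * p') := by positivity
    by_cases c1 : 𝒯 v v'
    · rw [chi_pos c1, one_mul]
      by_cases c2 : Bad v v'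
      · rw [chi_pos c2, mul_one]
        have h1 : W v v' ≤ 4 * (p * p') := by
          simp only [hW]
          refine (sum2_le P P' _ (c := 4) fun z _ t _ => ?_).trans (le_of_eq (by ring))
          refine (le_abs_self _).trans ?_
          rw [abs_mul, abs_mul, abs_mul (A v z), abs_mul (B v t), abs_mul (f v z t)]
          have a1 := mul_le_one₀ (hA v z) (abs_nonneg _) (hA v' z)
          have a2 := mul_le_one₀ (hB v t) (abs_nonneg _) (hB v' t)
          have a3 : |f v z t| * |f v' z t| ≤ 2 * 2 :=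
            mul_le_mul (hf2 v z t) (hf2 v' z t) (abs_nonneg _) (by norm_num)
          calc |A v z| * |A v' z| * (|f v z t| * |f v' z t|) * (|B v t| * |B v' t|)
              ≤ 1 * (2 * 2) * 1 := by
                refine mul_le_mul (mul_le_mul a1 a3 (by positivity) (by norm_num)) a2
                  (by positivity) (by norm_num)
            _ = 4 := by norm_num
        have h2 := mul_le_mul_of_nonneg_left h1 hE0
        linarith
      · rw [chi_neg c2, mul_zero, add_zero]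
        have h1 := good_pair 𝒟 hk hD2 hf hf2 (x := x) (y := y) hη H.L_inv H.L'_inv
          (H.L_cnt v hv v' hv' c1 c2) (H.L'_cnt v hv v' hv' c1 c2) (H.avg v hv v' hv' c1 c2)
          (w := fun z => A v z * A v' z) (u := fun t => B v t * B v' t)
          (fun a => by rw [abs_mul]; exact mul_le_one₀ (hA v a) (abs_nonneg _) (hA v' a))
          (fun a => by rw [abs_mul]; exact mul_le_one₀ (hB v a) (abs_nonneg _) (hB v' a))
        refine le_trans (mul_le_mul_of_nonneg_left (le_abs_self _) hE0) h1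
    · rw [chi_neg c1, zero_mul, mul_zero]
      have := chi_nonneg (Bad v v')
      have : 0 ≤ E * (4 * (p * p')) * chi (Bad v v') := by positivity
      linarith
  -- the sum over the pairs
  have hT : E * ∑ v ∈ P, ∑ v' ∈ P, chi (𝒯 v v') * W v v' ≤
      p ^ 2 * ((E * (η + 8 * l) + 4) * (p * p')) + E * (4 * (p * p')) * (b * p ^ 2) := by
    rw [Finset.mul_sum]
    simp only [Finset.mul_sum]
    refine (Finset.sum_le_sum fun v hv => Finset.sum_le_sum fun v' hv' => hWb v hv v' hv').trans ?_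
    simp only [Finset.sum_add_distrib, Finset.sum_const, nsmul_eq_mul, ← Finset.mul_sum]
    have h1 : ∑ v ∈ P, ∑ v' ∈ P, chi (Bad v v') ≤ b * p ^ 2 := H.bad_cnt
    have h2 := mul_le_mul_of_nonneg_left h1 (by positivity : 0 ≤ E * (4 * (p * p')))
    rw [← hp]
    nlinarith
  set S : ℝ := ∑ z ∈ P, ∑ t ∈ P', (∑ v ∈ P, g v z t) ^ 2 with hS
  have hfin : E * (c / (p * p) * S) ≤
      E * ∑ v ∈ P, ∑ v' ∈ P, chi (𝒯 v v') * W v v' + 4 * p ^ 2 * (p * p') := by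
    rw [← hsumW, hS]
    simp only [Finset.mul_sum]
    calc ∑ z ∈ P, ∑ t ∈ P', E * (c / (p * p) * (∑ v ∈ P, g v z t) ^ 2)
        ≤ ∑ z ∈ P, ∑ t ∈ P', (E * (∑ v ∈ P, ∑ v' ∈ P, g v z t * chi (𝒯 v v') * g v' z t) +
            4 * p ^ 2) := Finset.sum_le_sum fun z _ => Finset.sum_le_sum fun t _ => stepA z t
      _ = _ := by
        simp only [Finset.sum_add_distrib, Finset.sum_const, nsmul_eq_mul, ← Finset.mul_sum]
        rw [← hp, ← hp']
        ring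
  have e1 : E * (c * S) = (p * p) * (E * (c / (p * p) * S)) := by
    field_simp
  show E * (c * S) ≤ _
  rw [e1]
  calc (p * p) * (E * (c / (p * p) * S)) ≤ (p * p) *
        ((p ^ 2 * ((E * (η + 8 * l) + 4) * (p * p')) + E * (4 * (p * p')) * (b * p ^ 2)) +
          4 * p ^ 2 * (p * p')) := by
        refine mul_le_mul_of_nonneg_left ?_ (by positivity)
        linarith
    _ = _ := by ring

end Vale.Agent.P319.S2
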