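import Vale.Agent.P319.S2.H510.Defs2
import Vale.Agent.P319.S2.H510.RelStar
import Vale.Agent.P319.SC.H323.Iter

/-! P319, block S2: assembly of CORE. -/

namespace Vale.Agent.P319.S2.C510

open Finset Matrix Vale.Agent.P319.SC Vale.Agent.P319.SC.H323 Vale.Agent.P319.SC.H235
  Vale.Agent.P319.S2

set_option linter.all false

variable {V ι : Type} [Fintype V] [DecidableEq V] [DecidableEq ι] {m k : ℕ}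

theorem labf_ff (𝒞 : Cfg V ι m) (R : ι) (lab : ι → ZMod 3) (ε : ZMod 3) (v x y : V) :
    labf 𝒞 R lab ε v x y =
      ff (fun a b => 𝒞.c2 a b = R) (fun v x y => lab (𝒞.c3 v x y)) ε v x y := by
  unfold labf ff
  by_cases h : 𝒞.c2 v x = R ∧ 𝒞.c2 x y = R ∧ 𝒞.c2 y v = R
  · rw [if_pos h, chi_pos h]
    by_cases h1 : lab (𝒞.c3 v x y) = ε
    · rw [if_pos h1, chi_pos h1]; norm_num
    · rw [if_neg h1, chi_neg h1]; norm_num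
  · rw [if_neg h, chi_neg h, zero_mul]

/-- the rows of an invariant relation -/
theorem row_eq (𝒟 : Cfg V ι k) (hk : 2 ≤ k) {S : V → V → Prop} (hS : Inv2R 𝒟 S) {a x : V}
    (h : 𝒟.c1 a = 𝒟.c1 x) (σ : ι) :
    ∑ z ∈ 𝒟.cls σ, chi (S a z) = ∑ z ∈ 𝒟.cls σ, chi (S x z) := by
  obtain ⟨e, he⟩ := 𝒟.ext1 hk h
  have h1 : ∀ a, ∑ z ∈ 𝒟.cls σ, chi (S a z) = ∑ z, (if 𝒟.c1 z = σ then chi (S a z) else 0) := by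
    intro a
    rw [Cfg.cls, Finset.sum_filter]
  rw [h1, h1, ← Equiv.sum_comp e (fun z => if 𝒟.c1 z = σ then chi (S x z) else 0)]
  refine Finset.sum_congr rfl fun z _ => ?_
  rw [(𝒟.c1_of_c2 hk (he z)).2, chi_congr (hS _ _ _ _ (he z))]

theorem cnt_row (𝒟 : Cfg V ι k) (hk : 2 ≤ k) {S : V → V → Prop} (hS : Inv2R 𝒟 S) (x : V) (σ : ι) :
    cnt (𝒟.cls (𝒟.c1 x)) (𝒟.cls σ) S = (𝒟.cls (𝒟.c1 x)).card * ∑ z ∈ 𝒟.cls σ, chi (S x z) := by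
  unfold cnt
  rw [Finset.sum_congr rfl fun a ha => row_eq 𝒟 hk hS ((𝒟.mem_cls _ _).1 ha) σ,
    Finset.sum_const, nsmul_eq_mul]

theorem coll_congr (𝒟 : Cfg V ι k) (hk : 2 ≤ k) {Rr : V → V → Prop} (hR : Inv2R 𝒟 Rr)
    {x x₁ y y₁ : V} (hx : 𝒟.c1 x₁ = 𝒟.c1 x) (hy : 𝒟.c1 y₁ = 𝒟.c1 y) :
    coll 𝒟 Rr x₁ y₁ = coll 𝒟 Rr x y := by
  unfold coll
  rw [hy]
  obtain ⟨e, he⟩ := 𝒟.ext1 hk hx
  rw [Cfg.cls, Finset.sum_filter, Finset.sum_filter,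
    ← Equiv.sum_comp e (fun z => if 𝒟.c1 z = 𝒟.c1 y then chi (Rr x z) * (𝒟.val x (𝒟.c2 x z) : ℝ)
      else 0)]
  refine Finset.sum_congr rfl fun z _ => ?_
  rw [(𝒟.c1_of_c2 hk (he z)).2, chi_congr (hR _ _ _ _ (he z)), he z, 𝒟.val_eq hk hx]

/-- the state of the recursion -/
structure Inv (𝒞 : Cfg V ι (m + 2)) (ρ₀ R T : ι) (lab : ι → ZMod 3) (𝒟 : Cfg V ι k) (x y : V)
    (δ dR φ η b l : ℝ) : Prop where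
  r2 : ∀ a b a' b', 𝒟.c2 a b = 𝒟.c2 a' b' → 𝒞.c2 a b = 𝒞.c2 a' b'
  r3 : ∀ a b c a' b' c', 𝒟.c3 a b c = 𝒟.c3 a' b' c' → 𝒞.c3 a b c = 𝒞.c3 a' b' c'
  hx : x ∈ 𝒞.cls ρ₀
  hy : y ∈ 𝒞.cls ρ₀
  pr : ∀ ε : ZMod 3, ∃ (Bad : V → V → Prop) (L L' : V → V → V → Prop),
    PrData 𝒟 (labf 𝒞 R lab ε) (fun v v' => 𝒞.c2 v v' = T) x y η b l Bad L L'
  dT : δ * ((𝒟.cls (𝒟.c1 x)).card : ℝ) ^ 2 ≤
    cnt (𝒟.cls (𝒟.c1 x)) (𝒟.cls (𝒟.c1 x)) (fun a b => 𝒞.c2 a b = T)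
  d1 : δ * ((𝒟.cls (𝒟.c1 x)).card : ℝ) ^ 2 ≤
    cnt (𝒟.cls (𝒟.c1 x)) (𝒟.cls (𝒟.c1 x)) (fun a b => 𝒞.c2 a b = R)
  d2 : dR * (((𝒟.cls (𝒟.c1 x)).card : ℝ) * (𝒟.cls (𝒟.c1 y)).card) ≤
    cnt (𝒟.cls (𝒟.c1 x)) (𝒟.cls (𝒟.c1 y)) (fun a b => 𝒞.c2 a b = R)
  d3 : δ * (((𝒟.cls (𝒟.c1 x)).card : ℝ) * (𝒟.cls (𝒟.c1 y)).card) ≤
    cnt (𝒟.cls (𝒟.c1 x)) (𝒟.cls (𝒟.c1 y)) (fun a b => 𝒞.c2 b a = R)
  phi : coll 𝒟 (fun a b => 𝒞.c2 a b = R) x y ≤ φ * ((𝒟.cls (𝒟.c1 y)).card : ℝ) ^ 2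

/-- the densities -/
theorem dens_step (𝒟 : Cfg V ι k) (hk : 3 ≤ k) {D : ℕ} (hD1 : 1 ≤ D) (hD : BigRank 𝒟 D)
    {S : V → V → Prop} (hS : Inv2R 𝒟 S) (x y : V) {A B : Finset V}
    (hA : A ⊆ 𝒟.cls (𝒟.c1 x)) (hB : B ⊆ 𝒟.cls (𝒟.c1 y)) {Λ δ : ℝ} (hΛ : 0 ≤ Λ)
    (h1 : ((𝒟.cls (𝒟.c1 x)).card : ℝ) ≤ Λ * A.card)
    (h2 : ((𝒟.cls (𝒟.c1 y)).card : ℝ) ≤ Λ * B.card)
    (h : δ * (((𝒟.cls (𝒟.c1 x)).card : ℝ) * (𝒟.cls (𝒟.c1 y)).card) ≤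
      cnt (𝒟.cls (𝒟.c1 x)) (𝒟.cls (𝒟.c1 y)) S) :
    (δ - Λ / Real.sqrt D) * ((A.card : ℝ) * B.card) ≤ cnt A B S := by
  have hE : 0 < Real.sqrt D := Real.sqrt_pos.2 (by exact_mod_cast hD1)
  have hp : (0 : ℝ) < (𝒟.cls (𝒟.c1 x)).card := by exact_mod_cast 𝒟.cls_pos x
  have hq : (0 : ℝ) < (𝒟.cls (𝒟.c1 y)).card := by exact_mod_cast 𝒟.cls_pos y
  have key := cnt_step 𝒟 hk hD hS (𝒟.c1 x) (𝒟.c1 y) hA hB hΛ h1 h2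
  set c := cnt (𝒟.cls (𝒟.c1 x)) (𝒟.cls (𝒟.c1 y)) S
  set AB : ℝ := (A.card : ℝ) * B.card with hAB
  have hAB0 : 0 ≤ AB := by positivity
  have h3 : δ ≤ c / ((𝒟.cls (𝒟.c1 x)).card * (𝒟.cls (𝒟.c1 y)).card) := by
    rw [le_div_iff₀ (by positivity)]
    exact h
  have h4 : |cnt A B S - c / ((𝒟.cls (𝒟.c1 x)).card * (𝒟.cls (𝒟.c1 y)).card) * AB| ≤
      Λ * AB / Real.sqrt D := by
    rw [le_div_iff₀ hE, mul_comm]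
    exact key
  have h5 := (abs_le.1 h4).1
  have h6 := mul_le_mul_of_nonneg_right h3 hAB0
  have h7 : (δ - Λ / Real.sqrt D) * AB = δ * AB - Λ * AB / Real.sqrt D := by ring
  rw [h7]
  linarith

/-- a big colour -/
theorem big_col (𝒟 : Cfg V ι k) (hk : 3 ≤ k) {S : V → V → Prop} (hS : Inv2R 𝒟 S) (x y : V)
    {Q : ℕ} (hQ : (𝒟.rels (𝒟.c1 x) (𝒟.c1 y)).card ≤ Q) {δ Λ : ℝ} (hδ : 0 < δ)
    (hΛ : (Q : ℝ) ≤ Λ * δ)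
    (h : δ * (((𝒟.cls (𝒟.c1 x)).card : ℝ) * (𝒟.cls (𝒟.c1 y)).card) ≤
      cnt (𝒟.cls (𝒟.c1 x)) (𝒟.cls (𝒟.c1 y)) S) :
    ∃ y₁ : V, 𝒟.c1 y₁ = 𝒟.c1 y ∧ S x y₁ ∧
      ((𝒟.cls (𝒟.c1 y)).card : ℝ) ≤ Λ * (𝒟.val x (𝒟.c2 x y₁) : ℝ) := by
  classical
  have hp : (0 : ℝ) < (𝒟.cls (𝒟.c1 x)).card := by exact_mod_cast 𝒟.cls_pos x
  have hq : (0 : ℝ) < (𝒟.cls (𝒟.c1 y)).card := by exact_mod_cast 𝒟.cls_pos y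
  rw [cnt_row 𝒟 (by omega) hS] at h
  set P' := 𝒟.cls (𝒟.c1 y) with hP'
  have h1 : δ * (P'.card : ℝ) ≤ ((P'.filter fun z => S x z).card : ℝ) := by
    rw [← sum_chi]
    refine le_of_mul_le_mul_left ?_ hp
    calc ((𝒟.cls (𝒟.c1 x)).card : ℝ) * (δ * P'.card) =
          δ * (((𝒟.cls (𝒟.c1 x)).card : ℝ) * P'.card) := by ring
      _ ≤ _ := h
  have hne : (P'.filter fun z => S x z).Nonempty := by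
    rw [← card_pos]
    have : (0 : ℝ) < ((P'.filter fun z => S x z).card : ℝ) := lt_of_lt_of_le (by positivity) h1
    exact_mod_cast this
  obtain ⟨y₁, hy₁, hc⟩ := pigeon (P'.filter fun z => S x z) hne (fun z => 𝒟.c2 x z)
    (𝒟.rels (𝒟.c1 x) (𝒟.c1 y)) hQ (fun z hz => (𝒟.mem_rels _ _ _).2 ⟨x, z, rfl,
      (𝒟.mem_cls _ _).1 (mem_filter.1 hz).1, rfl⟩)
  rw [mem_filter, 𝒟.mem_cls] at hy₁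
  refine ⟨y₁, hy₁.1, hy₁.2, ?_⟩
  have h2 : ((P'.filter fun z => S x z).filter fun w => 𝒟.c2 x w = 𝒟.c2 x y₁).card ≤
      𝒟.val x (𝒟.c2 x y₁) :=
    card_le_card fun z hz => mem_filter.2 ⟨mem_univ _, (mem_filter.1 hz).2⟩
  have h3 : ((P'.filter fun z => S x z).card : ℝ) ≤ Q * (𝒟.val x (𝒟.c2 x y₁) : ℝ) := by
    exact_mod_cast hc.trans (Nat.mul_le_mul_left _ h2)
  have h4 : (0 : ℝ) ≤ (𝒟.val x (𝒟.c2 x y₁) : ℝ) := Nat.cast_nonneg _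
  refine le_of_mul_le_mul_left ?_ hδ
  calc δ * (P'.card : ℝ) ≤ Q * (𝒟.val x (𝒟.c2 x y₁) : ℝ) := h1.trans h3
    _ ≤ (Λ * δ) * (𝒟.val x (𝒟.c2 x y₁) : ℝ) := mul_le_mul_of_nonneg_right hΛ h4
    _ = δ * (Λ * (𝒟.val x (𝒟.c2 x y₁) : ℝ)) := by ring

end Vale.Agent.P319.S2.C510
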