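import Vale.Agent.P319.S2.H510.Step
import Vale.Agent.P319.S2.H235.Stage0
import Vale.Agent.P319.S2.H378.Count

/-! P319, block S2: assembly of CORE. -/

namespace Vale.Agent.P319.S2.C510

open Finset Matrix Vale.Agent.P319.SC Vale.Agent.P319.SC.H323 Vale.Agent.P319.SC.H235
  Vale.Agent.P319.S2

set_option linter.all false

variable {V ι : Type} [Fintype V] [DecidableEq V] [DecidableEq ι] {m k : ℕ}

/-- the recursion -/
theorem core_rec (hPS : PrStepStmt) {M D L₀ Q J : ℕ} {𝒞 : Cfg V ι (m + 2)} {ρ₀ R T : ι}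
    {lab : ι → ZMod 3} (G : TG 𝒞 R T lab ρ₀ D L₀ M) (hM : 5 ≤ M) (hD1 : 1 ≤ D)
    {δ₀ d₀ Λ κ θ : ℝ} (hθ : 0 ≤ θ) (hΛ : 1 ≤ Λ) (hκ : 0 < κ) (hκ1 : κ ≤ 1) (hδ₀ : 0 < δ₀)
    (hd₀ : 0 < d₀) (hθδ : (J : ℝ) * θ ≤ δ₀ / 2) (hθd : (J : ℝ) * θ ≤ d₀ / 2)
    (hΛδ : (Q : ℝ) ≤ Λ * (δ₀ / 2))
    (n1 : 4 * (Λ / κ) / Real.sqrt D ≤ θ)
    (n2 : Λ / Real.sqrt D + ((Q ^ 2 : ℕ) : ℝ) * κ * Λ ^ 2 ≤ θ)
    (n3 : (Λ / κ) / Real.sqrt D + ((Q ^ 2 : ℕ) : ℝ) * κ ≤ θ) (n4 : Λ / Real.sqrt D ≤ θ)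
    (nC : 3 * Λ ^ 2 / D + (13 * ((J + 1) * θ) + 8 / Real.sqrt D) * Λ ^ 4 / (3 * (δ₀ / 2)) ≤
      (1 / 2) ^ J * d₀ ^ 2 / 8) :
    ∀ (j i : ℕ), i + j = J → ∀ (𝒟 : Cfg V ι (M + (j + 2))), RB (𝒞.cls ρ₀) Q M (j + 2) 𝒟 →
      ∀ x y : V, Inv 𝒞 ρ₀ R T lab 𝒟 x y (δ₀ - i * θ) (d₀ - i * θ) ((1 / 2) ^ i * d₀ ^ 2)
        ((i + 1) * θ) ((i + 1) * θ) ((i + 1) * θ) → 2 ^ J ≤ 4 * Q := by
  intro j
  induction j with
  | zero =>
    intro i hi 𝒟 hRB x y hI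
    have hi' : i = J := by omega
    subst hi'
    have iR : Inv2R 𝒟 (fun a b => 𝒞.c2 a b = R) := fun v v' w w' h => by
      simp only [hI.r2 _ _ _ _ h]
    have hp : (0 : ℝ) < (𝒟.cls (𝒟.c1 x)).card := by exact_mod_cast 𝒟.cls_pos x
    have hp' : (0 : ℝ) < (𝒟.cls (𝒟.c1 y)).card := by exact_mod_cast 𝒟.cls_pos y
    have h1 := hI.d2
    rw [cnt_row 𝒟 (by omega) iR] at h1
    set s := ∑ z ∈ 𝒟.cls (𝒟.c1 y), chi (𝒞.c2 x z = R) with hs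
    set p : ℝ := ((𝒟.cls (𝒟.c1 x)).card : ℝ) with hpdef
    set p' : ℝ := ((𝒟.cls (𝒟.c1 y)).card : ℝ) with hp'def
    have h2 : d₀ / 2 * p' ≤ s := by
      have h3 : (d₀ - i * θ) * p' ≤ s := by
        refine le_of_mul_le_mul_left ?_ hp
        calc p * ((d₀ - i * θ) * p') = (d₀ - i * θ) * (p * p') := by ring
          _ ≤ _ := h1
      refine le_trans (mul_le_mul_of_nonneg_right (by linarith) hp'.le) h3
    have h4 := count V ι (M + 2) 𝒟 (by omega) (fun a b => 𝒞.c2 a b = R) iR x y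
    have h5 : ((𝒟.rels (𝒟.c1 x) (𝒟.c1 y)).card : ℝ) ≤ Q := by
      exact_mod_cast hRB.rels (by omega) hI.hx hI.hy
    have h6 : (d₀ / 2 * p') ^ 2 ≤ Q * ((1 / 2) ^ i * d₀ ^ 2 * p' ^ 2) := by
      calc (d₀ / 2 * p') ^ 2 ≤ s ^ 2 := pow_le_pow_left₀ (by positivity) h2 2
        _ ≤ _ := h4
        _ ≤ Q * coll 𝒟 (fun a b => 𝒞.c2 a b = R) x y := by
            refine mul_le_mul_of_nonneg_right h5 ?_
            exact Finset.sum_nonneg fun z _ => mul_nonneg (chi_nonneg _) (Nat.cast_nonneg _)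
        _ ≤ _ := mul_le_mul_of_nonneg_left hI.phi (Nat.cast_nonneg _)
    have h7 : (2 : ℝ) ^ i ≤ 4 * Q := by
      have h8 : (0 : ℝ) < d₀ ^ 2 * p' ^ 2 / 4 := by positivity
      refine le_of_mul_le_mul_right ?_ h8
      have h9 : (2 : ℝ) ^ i * ((1 / 2) ^ i) = 1 := by
        rw [← mul_pow]; norm_num
      calc (2 : ℝ) ^ i * (d₀ ^ 2 * p' ^ 2 / 4) = 2 ^ i * (d₀ / 2 * p') ^ 2 := by ring
        _ ≤ 2 ^ i * (Q * ((1 / 2) ^ i * d₀ ^ 2 * p' ^ 2)) :=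
            mul_le_mul_of_nonneg_left h6 (by positivity)
        _ = (2 ^ i * (1 / 2) ^ i) * (Q * (d₀ ^ 2 * p' ^ 2)) := by ring
        _ = 4 * Q * (d₀ ^ 2 * p' ^ 2 / 4) := by rw [h9]; ring
    exact_mod_cast h7
  | succ j ih =>
    intro i hi 𝒟 hRB x y hI
    have hiJ : (i : ℝ) ≤ J := by exact_mod_cast (by omega : i ≤ J)
    have hi1J : (i : ℝ) + 1 ≤ J := by exact_mod_cast (by omega : i + 1 ≤ J)
    have hiθ : (i : ℝ) * θ ≤ J * θ := mul_le_mul_of_nonneg_right hiJ hθ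
    have hδi : δ₀ / 2 ≤ δ₀ - i * θ := by linarith
    have hs0 : (0 : ℝ) ≤ 8 / Real.sqrt D := by positivity
    obtain ⟨x₁, y₁, hI'⟩ := inv_step hPS G hM hD1 𝒟 hRB x y hI (by positivity) hΛ hκ hκ1
      (by linarith) (hΛδ.trans (mul_le_mul_of_nonneg_left hδi (by linarith))) n1 n2 n3 n4 (by
        have a1 : (1 / 2 : ℝ) ^ J * d₀ ^ 2 / 8 ≤ (1 / 2) ^ i * d₀ ^ 2 / 8 := by
          have : (1 / 2 : ℝ) ^ J ≤ (1 / 2) ^ i :=
            pow_le_pow_of_le_one (by norm_num) (by norm_num) (by omega)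
          have := mul_le_mul_of_nonneg_right this (by positivity : (0 : ℝ) ≤ d₀ ^ 2)
          linarith
        refine le_trans (le_trans ?_ nC) a1
        refine add_le_add le_rfl ?_
        have a2 : (13 * (((i : ℝ) + 1) * θ) + 8 / Real.sqrt D) ≤
            13 * ((J + 1) * θ) + 8 / Real.sqrt D := by
          have : ((i : ℝ) + 1) * θ ≤ (J + 1) * θ := mul_le_mul_of_nonneg_right (by linarith) hθ
          linarith
        refine div_le_div₀ (by positivity) (mul_le_mul_of_nonneg_right a2 (by positivity))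
          (by positivity) (by linarith))
    refine ih (i + 1) (by omega) _ (hRB.2 x hI.hx) x₁ y₁ ?_
    have e1 : δ₀ - ((i + 1 : ℕ) : ℝ) * θ = δ₀ - i * θ - θ := by push_cast; ring
    have e2 : d₀ - ((i + 1 : ℕ) : ℝ) * θ = d₀ - i * θ - θ := by push_cast; ring
    have e3 : (1 / 2 : ℝ) ^ (i + 1) * d₀ ^ 2 = (1 / 2) ^ i * d₀ ^ 2 / 2 := by ring
    have e4 : (((i + 1 : ℕ) : ℝ) + 1) * θ = ((i : ℝ) + 1) * θ + θ := by push_cast; ring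
    rw [e1, e2, e3, e4]
    exact hI'

end Vale.Agent.P319.S2.C510
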