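import Vale.Agent.P319.S2.H510.Rel

/-! P319, block S2: the pieces of CORE, statements. -/

namespace Vale.Agent.P319.S2

open Finset Matrix Vale.Agent.P319.SC Vale.Agent.P319.SC.H323 Vale.Agent.P319.SC.H235

set_option linter.all false

variable {V ι : Type} [Fintype V] [DecidableEq V] [DecidableEq ι] {m k : ℕ}

/-- invariant binary relations -/
def Inv2R (𝒟 : Cfg V ι k) (B : V → V → Prop) : Prop :=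
  ∀ v v' w w', 𝒟.c2 v v' = 𝒟.c2 w w' → (B v v' ↔ B w w')

/-- invariant ternary relations -/
def Inv3R (𝒟 : Cfg V ι k) (L : V → V → V → Prop) : Prop :=
  ∀ v v' z w w' t, 𝒟.c3 v v' z = 𝒟.c3 w w' t → (L v v' z ↔ L w w' t)

/-- invariant ternary functions -/
def Inv3F (𝒟 : Cfg V ι k) {K : Type} (f : V → V → V → K) : Prop :=
  ∀ v v' z w w' t, 𝒟.c3 v v' z = 𝒟.c3 w w' t → f v v' z = f w w' t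

/-- the class of `z` over `v`, `v'` -/
def C3 (𝒟 : Cfg V ι k) (v v' z : V) : Finset V := univ.filter fun t => 𝒟.c3 v v' t = 𝒟.c3 v v' z

/-- the inductive hypothesis: outside of the bad pairs and the light points the mean of
`f v a c * f v' a c` over the pairs of classes over `v`, `v'` is at most `η` -/
structure PrData (𝒟 : Cfg V ι k) (f : V → V → V → ℝ) (𝒯 : V → V → Prop) (x y : V) (η b l : ℝ)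
    (Bad : V → V → Prop) (L L' : V → V → V → Prop) : Prop where
  bad_inv : Inv2R 𝒟 Bad
  L_inv : Inv3R 𝒟 L
  L'_inv : Inv3R 𝒟 L'
  bad_cnt : cnt (𝒟.cls (𝒟.c1 x)) (𝒟.cls (𝒟.c1 x)) Bad ≤ b * ((𝒟.cls (𝒟.c1 x)).card : ℝ) ^ 2
  L_cnt : ∀ v ∈ 𝒟.cls (𝒟.c1 x), ∀ v' ∈ 𝒟.cls (𝒟.c1 x), 𝒯 v v' → ¬ Bad v v' →
    ∑ z ∈ 𝒟.cls (𝒟.c1 x), chi (L v v' z) ≤ l * (𝒟.cls (𝒟.c1 x)).card
  L'_cnt : ∀ v ∈ 𝒟.cls (𝒟.c1 x), ∀ v' ∈ 𝒟.cls (𝒟.c1 x), 𝒯 v v' → ¬ Bad v v' →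
    ∑ z ∈ 𝒟.cls (𝒟.c1 y), chi (L' v v' z) ≤ l * (𝒟.cls (𝒟.c1 y)).card
  avg : ∀ v ∈ 𝒟.cls (𝒟.c1 x), ∀ v' ∈ 𝒟.cls (𝒟.c1 x), 𝒯 v v' → ¬ Bad v v' →
    ∀ z ∈ 𝒟.cls (𝒟.c1 x), ∀ t ∈ 𝒟.cls (𝒟.c1 y), ¬ L v v' z → ¬ L' v v' t →
      |∑ a ∈ C3 𝒟 v v' z, ∑ c ∈ C3 𝒟 v v' t, f v a c * f v' a c| ≤
        η * (((C3 𝒟 v v' z).card : ℝ) * (C3 𝒟 v v' t).card)

/-- `Φ * |P'| ^ 2`: the sum of the squares of the valencies of the colours below `Rr` between the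
class of `x` and the class of `y` -/
noncomputable def coll (𝒟 : Cfg V ι k) (Rr : V → V → Prop) (x y : V) : ℝ :=
  ∑ z ∈ 𝒟.cls (𝒟.c1 y), chi (Rr x z) * (𝒟.val x (𝒟.c2 x z) : ℝ)

/-- the centered label function -/
noncomputable def ff (Rr : V → V → Prop) (lam : V → V → V → ZMod 3) (ε : ZMod 3) (v x y : V) : ℝ :=
  chi (Rr v x ∧ Rr x y ∧ Rr y v) * (3 * chi (lam v x y = ε) - 1)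

/-- **piece 1** (trace of a small set on the class of `x₁` over `x`) -/
def TraceStmt : Prop := ∀ (V ι : Type) [Fintype V] [DecidableEq V] [DecidableEq ι] (k : ℕ)
  (𝒟 : Cfg V ι k), 4 ≤ k → ∀ D : ℕ, BigRank 𝒟 D → ∀ L : V → V → V → Prop, Inv3R 𝒟 L →
  ∀ (v v' x x₁ : V) (Λ κ l : ℝ), 1 ≤ Λ → 0 < κ → κ ≤ 1 → 0 ≤ l →
  κ * ((𝒟.cls (𝒟.c1 x)).card : ℝ) ≤ (C3 𝒟 v v' x).card →
  ((𝒟.cls (𝒟.c1 x₁)).card : ℝ) ≤ Λ * (𝒟.val x (𝒟.c2 x x₁) : ℝ) →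
  ∑ z ∈ 𝒟.cls (𝒟.c1 x₁), chi (L v v' z) ≤ l * (𝒟.cls (𝒟.c1 x₁)).card →
  Real.sqrt D * ∑ z ∈ univ.filter (fun z => 𝒟.c2 x z = 𝒟.c2 x x₁), chi (L v v' z) ≤
    (Real.sqrt D * l + Λ / κ) * (𝒟.val x (𝒟.c2 x x₁) : ℝ)

/-- **piece 2** (few pairs for which `x` is a light point) -/
def NewBadStmt : Prop := ∀ (V ι : Type) [Fintype V] [DecidableEq V] [DecidableEq ι] (k : ℕ)
  (𝒟 : Cfg V ι k), 3 ≤ k → ∀ (x : V) (κ : ℝ) (N : ℕ), 0 ≤ κ →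
  (∀ v ∈ 𝒟.cls (𝒟.c1 x), ∀ v' ∈ 𝒟.cls (𝒟.c1 x),
    ((𝒟.cls (𝒟.c1 x)).image fun z => 𝒟.c3 v v' z).card ≤ N) →
  cnt (𝒟.cls (𝒟.c1 x)) (𝒟.cls (𝒟.c1 x)) (fun v v' =>
    ((C3 𝒟 v v' x).card : ℝ) < κ * (𝒟.cls (𝒟.c1 x)).card) ≤
      N * κ * ((𝒟.cls (𝒟.c1 x)).card : ℝ) ^ 2

/-- **piece 3** (number of classes over two points) -/
def ImageStmt : Prop := ∀ (V ι : Type) [Fintype V] [DecidableEq V] [DecidableEq ι] (M j Q : ℕ)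
  (X : Finset V) (𝒟 : Cfg V ι (M + (j + 1))), 3 ≤ M → RB X Q M (j + 1) 𝒟 →
  ∀ v ∈ X, ∀ v' ∈ X, ∀ z₀ ∈ X, (∀ z, 𝒟.c1 z = 𝒟.c1 z₀ → z ∈ X) →
    ((𝒟.cls (𝒟.c1 z₀)).image fun z => 𝒟.c3 v v' z).card ≤ Q ^ 2

/-- **piece 4** (the mean on the smaller classes) -/
def AvgStmt : Prop := ∀ (V ι : Type) [Fintype V] [DecidableEq V] [DecidableEq ι] (k : ℕ)
  (𝒟 : Cfg V ι (k + 3)), 3 ≤ k → ∀ D : ℕ, (∀ v v', BigRank ((𝒟.fix v).fix v') D) →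
  ∀ f : V → V → V → ℝ, Inv3F 𝒟 f → (∀ v a c, |f v a c| ≤ 2) →
  ∀ (x v v' z t : V) (η B₁ : ℝ), 0 ≤ η → 0 ≤ B₁ →
  ((C3 𝒟 v v' z).card : ℝ) ≤ B₁ * (C3 (𝒟.fix x) v v' z).card →
  ((C3 𝒟 v v' t).card : ℝ) ≤ B₁ * (C3 (𝒟.fix x) v v' t).card →
  |∑ a ∈ C3 𝒟 v v' z, ∑ c ∈ C3 𝒟 v v' t, f v a c * f v' a c| ≤
    η * (((C3 𝒟 v v' z).card : ℝ) * (C3 𝒟 v v' t).card) →
  Real.sqrt D * |∑ a ∈ C3 (𝒟.fix x) v v' z, ∑ c ∈ C3 (𝒟.fix x) v v' t, f v a c * f v' a c| ≤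
    (Real.sqrt D * η + 4 * B₁) *
      (((C3 (𝒟.fix x) v v' z).card : ℝ) * (C3 (𝒟.fix x) v v' t).card)

/-- **piece 5** (the start) -/
def Stage0Stmt : Prop := ∀ (V ι : Type) [Fintype V] [DecidableEq V] [DecidableEq ι]
  (m D L₀ M N : ℕ) (𝒞 : Cfg V ι (m + 2)) (ρ₀ R T : ι) (lab : ι → ZMod 3) (κ : ℝ) (x : V)
  (ε : ZMod 3), TG 𝒞 R T lab ρ₀ D L₀ M → 3 ≤ M → 1 ≤ D → 1 ≤ L₀ → 0 < κ → 𝒞.c1 x = ρ₀ →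
  (∀ v ∈ 𝒞.cls ρ₀, ∀ v' ∈ 𝒞.cls ρ₀, ((𝒞.cls ρ₀).image fun z => 𝒞.c3 v v' z).card ≤ N) →
  PrData 𝒞 (labf 𝒞 R lab ε) (fun v v' => 𝒞.c2 v v' = T) x x
    (4 * L₀ / (Real.sqrt D * κ ^ 2)) 0 (N * κ) (fun _ _ => False)
    (fun v v' z => ((C3 𝒞 v v' z).card : ℝ) < κ * (𝒞.cls ρ₀).card)
    (fun v v' z => ((C3 𝒞 v v' z).card : ℝ) < κ * (𝒞.cls ρ₀).card)

/-- **piece 6** (the relative star inequality) -/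
def RelStarStmt : Prop := ∀ (V ι : Type) [Fintype V] [DecidableEq V] [DecidableEq ι] (k : ℕ)
  (𝒟 : Cfg V ι (k + 2)), 3 ≤ k → ∀ D : ℕ, BigRank 𝒟 D → (∀ v v', BigRank ((𝒟.fix v).fix v') D) →
  ∀ f : V → V → V → ℝ, Inv3F 𝒟 f → (∀ v a c, |f v a c| ≤ 2) →
  ∀ 𝒯 : V → V → Prop, Inv2R 𝒟 𝒯 → ∀ (x y : V) (η b l : ℝ), 0 ≤ η → 0 ≤ b → 0 ≤ l →
  ∀ (Bad : V → V → Prop) (L L' : V → V → V → Prop), PrData 𝒟 f 𝒯 x y η b l Bad L L' →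
  ∀ A B : V → V → ℝ, (∀ v z, |A v z| ≤ 1) → (∀ v z, |B v z| ≤ 1) →
  Real.sqrt D * (cnt (𝒟.cls (𝒟.c1 x)) (𝒟.cls (𝒟.c1 x)) 𝒯 *
    ∑ z ∈ 𝒟.cls (𝒟.c1 x), ∑ t ∈ 𝒟.cls (𝒟.c1 y),
      (∑ v ∈ 𝒟.cls (𝒟.c1 x), A v z * B v t * f v z t) ^ 2) ≤
    (Real.sqrt D * (η + 8 * l + 4 * b) + 8) *
      (((𝒟.cls (𝒟.c1 x)).card : ℝ) ^ 5 * (𝒟.cls (𝒟.c1 y)).card)

/-- **piece 7** (the step of the potential) -/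
def PhiStmt : Prop := ∀ (V ι : Type) [Fintype V] [DecidableEq V] [DecidableEq ι] (k : ℕ)
  (𝒟 : Cfg V ι (k + 1)), 3 ≤ k → ∀ D : ℕ, 1 ≤ D → BigRank 𝒟 D →
  ∀ Rr : V → V → Prop, Inv2R 𝒟 Rr → ∀ lam : V → V → V → ZMod 3, Inv3F 𝒟 lam →
  ∀ (v₀ x₁ y₁ : V) (Ξ : ℝ), 𝒟.c1 x₁ = 𝒟.c1 v₀ → Rr v₀ x₁ → Rr y₁ v₀ →
  (∀ ε : ZMod 3, ∑ z ∈ 𝒟.cls (𝒟.c1 v₀), ∑ t ∈ 𝒟.cls (𝒟.c1 y₁),
    (∑ v ∈ 𝒟.cls (𝒟.c1 v₀), chi (𝒟.c2 v z = 𝒟.c2 v₀ x₁) * chi (𝒟.c2 v t = 𝒟.c2 v₀ y₁) *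
      ff Rr lam ε v z t) ^ 2 ≤ Ξ) →
  ∀ p p' p₁ p'₁ : ℝ, p = (𝒟.cls (𝒟.c1 v₀)).card → p' = (𝒟.cls (𝒟.c1 y₁)).card →
  p₁ = (𝒟.val v₀ (𝒟.c2 v₀ x₁) : ℝ) → p'₁ = (𝒟.val v₀ (𝒟.c2 v₀ y₁) : ℝ) →
  coll (𝒟.fix v₀) Rr x₁ y₁ ≤ 3 / 8 * (p'₁ / p') ^ 2 * coll 𝒟 Rr x₁ y₁ +
    3 * (p * p' * p'₁) / (D * p₁) + p' / (3 * p * p₁ ^ 2) * Ξ

end Vale.Agent.P319.S2
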