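import Vale.Agent.P319.S2.H510.Defs

/-! P319, block S2: the pieces of CORE, statements, continued. -/

namespace Vale.Agent.P319.S2

open Finset Matrix Vale.Agent.P319.SC Vale.Agent.P319.SC.H323 Vale.Agent.P319.SC.H235

set_option linter.all false

/-- **piece 8** (one step of `PrData`) -/
def PrStepStmt : Prop := TraceStmt → NewBadStmt → AvgStmt →
  ∀ (V ι : Type) [Fintype V] [DecidableEq V] [DecidableEq ι] (k : ℕ) (𝒟 : Cfg V ι (k + 3)), 3 ≤ k →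
  ∀ D : ℕ, 1 ≤ D → BigRank 𝒟 D → (∀ v v', BigRank ((𝒟.fix v).fix v') D) →
  ∀ f : V → V → V → ℝ, Inv3F 𝒟 f → (∀ v a c, |f v a c| ≤ 2) →
  ∀ 𝒯 : V → V → Prop, Inv2R 𝒟 𝒯 → ∀ (x y x₁ y₁ : V) (η b l Λ κ : ℝ) (N : ℕ),
  0 ≤ η → 0 ≤ b → 0 ≤ l → 1 ≤ Λ → 0 < κ → κ ≤ 1 → 𝒟.c1 x₁ = 𝒟.c1 x → 𝒟.c1 y₁ = 𝒟.c1 y →
  ((𝒟.cls (𝒟.c1 x)).card : ℝ) ≤ Λ * (𝒟.val x (𝒟.c2 x x₁) : ℝ) →
  ((𝒟.cls (𝒟.c1 y)).card : ℝ) ≤ Λ * (𝒟.val x (𝒟.c2 x y₁) : ℝ) →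
  (∀ v ∈ 𝒟.cls (𝒟.c1 x), ∀ v' ∈ 𝒟.cls (𝒟.c1 x),
    ((𝒟.cls (𝒟.c1 x)).image fun z => 𝒟.c3 v v' z).card ≤ N) →
  (∀ v ∈ 𝒟.cls (𝒟.c1 x), ∀ v' ∈ 𝒟.cls (𝒟.c1 x),
    (((𝒟.fix x).cls ((𝒟.fix x).c1 x₁)).image fun z => (𝒟.fix x).c3 v v' z).card ≤ N) →
  (∀ v ∈ 𝒟.cls (𝒟.c1 x), ∀ v' ∈ 𝒟.cls (𝒟.c1 x),
    (((𝒟.fix x).cls ((𝒟.fix x).c1 y₁)).image fun z => (𝒟.fix x).c3 v v' z).card ≤ N) →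
  ∀ (Bad : V → V → Prop) (L L' : V → V → V → Prop), PrData 𝒟 f 𝒯 x y η b l Bad L L' →
  ∃ (Bad₁ : V → V → Prop) (L₁ L₁' : V → V → V → Prop),
    PrData (𝒟.fix x) f 𝒯 x₁ y₁ (η + 4 * (Λ / κ) / Real.sqrt D)
      (b + Λ / Real.sqrt D + N * κ * Λ ^ 2) (l + (Λ / κ) / Real.sqrt D + N * κ) Bad₁ L₁ L₁'

/-- **piece 9** (the number of colours) -/
def CountStmt : Prop := ∀ (V ι : Type) [Fintype V] [DecidableEq V] [DecidableEq ι] (k : ℕ)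
  (𝒟 : Cfg V ι k), 2 ≤ k → ∀ Rr : V → V → Prop, Inv2R 𝒟 Rr → ∀ x y : V,
  (∑ z ∈ 𝒟.cls (𝒟.c1 y), chi (Rr x z)) ^ 2 ≤
    ((𝒟.rels (𝒟.c1 x) (𝒟.c1 y)).card : ℝ) * coll 𝒟 Rr x y

end Vale.Agent.P319.S2
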