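import Mathlib

/-! P319, block S2: the numbers of CORE. -/

namespace Vale.Agent.P319.S2.C510

theorem nums {a L Q s Dr d₀ Λ κ θ : ℝ} {J : ℕ} (ha : 1024 ≤ a) (hL1 : 1 ≤ L) (hLa : L ≤ a)
    (hQ1 : 1 ≤ Q) (hQa : Q ≤ a) (hJ : (J : ℝ) + 1 ≤ a) (h2J : (2 : ℝ) ^ J ≤ a) (hs : a ^ 500 ≤ s)
    (hD : s ^ 2 = Dr) (hd : 1 / L ≤ d₀) (hΛ : Λ = 2 * L * Q) (hκ : κ = (a ^ 60)⁻¹)
    (hθ : θ = (a ^ 22)⁻¹) :
    (J : ℝ) * θ ≤ 1 / L / 2 ∧ (J : ℝ) * θ ≤ d₀ / 2 ∧ 4 * (Λ / κ) / s ≤ θ ∧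
      Λ / s + Q ^ 2 * κ * Λ ^ 2 ≤ θ ∧ (Λ / κ) / s + Q ^ 2 * κ ≤ θ ∧ Λ / s ≤ θ ∧
      3 * Λ ^ 2 / Dr + (13 * ((J + 1) * θ) + 8 / s) * Λ ^ 4 / (3 * (1 / L / 2)) ≤
        (1 / 2) ^ J * d₀ ^ 2 / 8 ∧ 4 * L / (s * κ ^ 2) ≤ θ ∧ Q ^ 2 * κ ≤ θ := by
  have h0 : 0 < a := by linarith
  have h1 : 1 ≤ a := by linarith
  have hs0 : 0 < s := lt_of_lt_of_le (by positivity) hs
  have hL0 : 0 < L := by linarith
  have hQ0 : 0 < Q := by linarith
  have hΛ0 : 0 < Λ := by rw [hΛ]; positivity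
  have hθ0 : 0 < θ := by rw [hθ]; positivity
  have hJ0 : (0 : ℝ) ≤ J := Nat.cast_nonneg _
  have pw : ∀ {i j : ℕ}, i ≤ j → a ^ i ≤ a ^ j := fun h => pow_le_pow_right₀ h1 h
  have hΛ3 : Λ ≤ a ^ 3 := by
    rw [hΛ]
    calc 2 * L * Q ≤ a * a * a :=
          mul_le_mul (mul_le_mul (by linarith) hLa hL0.le (by linarith)) hQa hQ0.le (by positivity)
      _ = a ^ 3 := by ring
  have hΛκ : Λ / κ = Λ * a ^ 60 := by rw [hκ, div_inv_eq_mul]
  have hLa' : 1 / a ≤ 1 / L := one_div_le_one_div_of_le hL0 hLa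
  have c0 : ∀ {x : ℝ}, x * a ^ 22 ≤ s → x / s ≤ θ := by
    intro x hx
    rw [hθ, div_le_iff₀ hs0, inv_mul_eq_div, le_div_iff₀ (by positivity)]
    exact hx
  have c1 : ∀ {x : ℝ} {n : ℕ}, x ≤ a ^ n → n ≤ 400 → x / s ≤ θ := by
    intro x n hx hn
    refine c0 (le_trans (mul_le_mul_of_nonneg_right hx (by positivity)) ?_)
    rw [← pow_add]
    exact (pw (by omega)).trans hs
  have c2 : ∀ {x : ℝ} {n : ℕ}, x ≤ a ^ n → n ≤ 399 → x / s ≤ θ / 2 := by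
    intro x n hx hn
    have h2 : 2 * x ≤ a ^ (n + 1) := by
      have h3 : a ^ (n + 1) = a ^ n * a := pow_succ _ _
      have h4 : a ^ n * 2 ≤ a ^ n * a := mul_le_mul_of_nonneg_left (by linarith) (by positivity)
      rw [h3]; linarith
    have h5 := c1 h2 (by omega)
    rw [mul_div_assoc] at h5
    linarith
  have hκθ : ∀ {x : ℝ} {n : ℕ}, x ≤ a ^ n → n ≤ 30 → x * κ ≤ θ / 2 := by
    intro x n hx hn
    rw [hκ, hθ]
    have h5 : (a ^ 60)⁻¹ = (a ^ 38)⁻¹ * (a ^ 22)⁻¹ := by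
      rw [← mul_inv, ← pow_add]
    have h6 : x * (a ^ 38)⁻¹ ≤ 1 / 2 := by
      rw [← div_eq_mul_inv, div_le_iff₀ (by positivity)]
      have h7 : a ^ n ≤ a ^ 37 := pw (by omega)
      have h8 : a ^ 38 = a ^ 37 * a := pow_succ _ _
      have h9 : a ^ 37 * 2 ≤ a ^ 37 * a := mul_le_mul_of_nonneg_left (by linarith) (by positivity)
      linarith
    rw [h5, ← mul_assoc]
    calc x * (a ^ 38)⁻¹ * (a ^ 22)⁻¹ ≤ 1 / 2 * (a ^ 22)⁻¹ :=
          mul_le_mul_of_nonneg_right h6 (by positivity)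
      _ = (a ^ 22)⁻¹ / 2 := by ring
  have hJθ : (J : ℝ) * θ ≤ 1 / a / 2 := by
    rw [hθ, ← div_eq_mul_inv, div_le_iff₀ (by positivity)]
    have h5 : 1 / a / 2 * a ^ 22 = a ^ 21 / 2 := by field_simp
    rw [h5, le_div_iff₀ (by norm_num)]
    calc (J : ℝ) * 2 ≤ a * a := mul_le_mul (by linarith) (by linarith) (by norm_num) h0.le
      _ = a ^ 2 := by ring
      _ ≤ a ^ 21 := pw (by norm_num)
  have hQ2 : Q ^ 2 ≤ a ^ 2 := pow_le_pow_left₀ hQ0.le hQa 2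
  have hΛp : ∀ n : ℕ, Λ ^ n ≤ a ^ (3 * n) := fun n => by
    rw [pow_mul]; exact pow_le_pow_left₀ hΛ0.le hΛ3 n
  have n4 : Λ / s ≤ θ := c1 hΛ3 (by norm_num)
  have h8s : 8 / s ≤ θ := c1 (n := 1) (by linarith [pow_one a]) (by norm_num)
  refine ⟨by linarith, by linarith, ?_, ?_, ?_, n4, ?_, ?_, ?_⟩
  · rw [hΛκ]
    refine c1 (n := 64) ?_ (by norm_num)
    calc 4 * (Λ * a ^ 60) ≤ a * (a ^ 3 * a ^ 60) :=
          mul_le_mul (by linarith) (mul_le_mul_of_nonneg_right hΛ3 (by positivity))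
            (by positivity) h0.le
      _ = a ^ 64 := by ring
  · have h5 := c2 hΛ3 (by norm_num)
    have h6 : Q ^ 2 * Λ ^ 2 * κ ≤ θ / 2 := by
      refine hκθ (n := 8) ?_ (by norm_num)
      calc Q ^ 2 * Λ ^ 2 ≤ a ^ 2 * a ^ (3 * 2) :=
            mul_le_mul hQ2 (hΛp 2) (by positivity) (by positivity)
        _ = a ^ 8 := by ring
    have h7 : Q ^ 2 * κ * Λ ^ 2 = Q ^ 2 * Λ ^ 2 * κ := by ring
    rw [h7]; linarith
  · have h5 : (Λ / κ) / s ≤ θ / 2 := by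
      rw [hΛκ]
      refine c2 (n := 63) ?_ (by norm_num)
      calc Λ * a ^ 60 ≤ a ^ 3 * a ^ 60 := mul_le_mul_of_nonneg_right hΛ3 (by positivity)
        _ = a ^ 63 := by ring
    have h6 := hκθ hQ2 (by norm_num)
    linarith
  · have hDr : a ^ 1000 ≤ Dr := by
      rw [← hD]
      calc a ^ 1000 = (a ^ 500) ^ 2 := by ring
        _ ≤ s ^ 2 := pow_le_pow_left₀ (by positivity) hs 2
    have hDr0 : 0 < Dr := lt_of_lt_of_le (by positivity) hDr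
    have t1 : 3 * Λ ^ 2 / Dr ≤ (a ^ 5)⁻¹ := by
      rw [div_le_iff₀ hDr0, inv_mul_eq_div, le_div_iff₀ (by positivity)]
      calc 3 * Λ ^ 2 * a ^ 5 ≤ a * a ^ (3 * 2) * a ^ 5 :=
            mul_le_mul_of_nonneg_right (mul_le_mul (by linarith) (hΛp 2) (by positivity) h0.le)
              (by positivity)
        _ = a ^ 12 := by ring
        _ ≤ a ^ 1000 := pw (by norm_num)
        _ ≤ Dr := hDr
    have t2 : 13 * (((J : ℝ) + 1) * θ) + 8 / s ≤ a ^ 2 * θ := by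
      have h5 : ((J : ℝ) + 1) * θ ≤ a * θ := mul_le_mul_of_nonneg_right hJ hθ0.le
      have h6 : θ ≤ a * θ := le_mul_of_one_le_left hθ0.le h1
      have h7 : 14 * (a * θ) ≤ a * (a * θ) :=
        mul_le_mul_of_nonneg_right (by linarith) (by positivity)
      have h8 : a ^ 2 * θ = a * (a * θ) := by ring
      rw [h8]; linarith
    have t0 : (0 : ℝ) ≤ 13 * (((J : ℝ) + 1) * θ) + 8 / s := by positivity
    have t3 : (13 * (((J : ℝ) + 1) * θ) + 8 / s) * Λ ^ 4 / (3 * (1 / L / 2)) ≤ (a ^ 5)⁻¹ := by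
      have h5 : (13 * (((J : ℝ) + 1) * θ) + 8 / s) * Λ ^ 4 / (3 * (1 / L / 2)) =
          (13 * (((J : ℝ) + 1) * θ) + 8 / s) * Λ ^ 4 * (2 / 3 * L) := by
        field_simp
      rw [h5]
      calc (13 * (((J : ℝ) + 1) * θ) + 8 / s) * Λ ^ 4 * (2 / 3 * L)
          ≤ (a ^ 2 * θ) * a ^ (3 * 4) * a := by
            refine mul_le_mul (mul_le_mul t2 (hΛp 4) (by positivity) (by positivity)) ?_
              (by positivity) (by positivity)
            linarith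
        _ = a ^ 15 * (a ^ 22)⁻¹ := by rw [hθ]; ring
        _ ≤ (a ^ 5)⁻¹ := by
            rw [← div_eq_mul_inv, div_le_iff₀ (by positivity), inv_mul_eq_div,
              le_div_iff₀ (by positivity), ← pow_add]
            exact pw (by norm_num)
    have t4 : 2 * (a ^ 5)⁻¹ ≤ (a ^ 4)⁻¹ := by
      rw [← div_eq_mul_inv, div_le_iff₀ (by positivity), inv_mul_eq_div,
        le_div_iff₀ (by positivity)]
      have h5 : a ^ 5 = a ^ 4 * a := pow_succ _ _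
      have h6 : a ^ 4 * 2 ≤ a ^ 4 * a := mul_le_mul_of_nonneg_left (by linarith) (by positivity)
      linarith
    have t5 : (a ^ 4)⁻¹ ≤ (1 / 2) ^ J * d₀ ^ 2 / 8 := by
      have h5 : 1 / a ≤ (1 / 2 : ℝ) ^ J := by
        rw [one_div_pow]
        exact one_div_le_one_div_of_le (by positivity) h2J
      have h6 : (1 / a) ^ 2 ≤ d₀ ^ 2 := pow_le_pow_left₀ (by positivity) (hLa'.trans hd) 2
      have h7 : 1 / a ≤ 1 / 8 := one_div_le_one_div_of_le (by norm_num) (by linarith)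
      calc (a ^ 4)⁻¹ = 1 / a * (1 / a) ^ 2 * (1 / a) := by field_simp
        _ ≤ (1 / 2) ^ J * d₀ ^ 2 * (1 / 8) :=
            mul_le_mul (mul_le_mul h5 h6 (by positivity) (by positivity)) h7 (by positivity)
              (by positivity)
        _ = _ := by ring
    linarith
  · have h5 : 4 * L / (s * κ ^ 2) = (4 * L * a ^ 120) / s := by
      rw [hκ]
      field_simp
    rw [h5]
    refine c1 (n := 122) ?_ (by norm_num)
    calc 4 * L * a ^ 120 ≤ a * a * a ^ 120 :=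
          mul_le_mul_of_nonneg_right (mul_le_mul (by linarith) hLa hL0.le h0.le) (by positivity)
      _ = a ^ 122 := by ring
  · have := hκθ hQ2 (by norm_num)
    linarith

end Vale.Agent.P319.S2.C510
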