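import Vale.Agent.P319.S2.H510.Core
import Vale.Agent.P319.S2.H510.Nums

/-! P319, block S2: CORE. -/

namespace Vale.Agent.P319.S2.C510

open Finset Matrix Vale.Agent.P319.SC Vale.Agent.P319.SC.H323 Vale.Agent.P319.SC.H235
  Vale.Agent.P319.S2

set_option linter.all false

variable {V ι : Type} [Fintype V] [DecidableEq V] [DecidableEq ι] {m k : ℕ}

theorem row_val (𝒞 : Cfg V ι m) (hm : 2 ≤ m) {ρ₀ R : ι} (hR : R ∈ 𝒞.rels ρ₀ ρ₀) (x : V) :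
    ∑ z ∈ 𝒞.cls ρ₀, chi (𝒞.c2 x z = R) = (𝒞.val x R : ℝ) := by
  rw [sum_chi]
  congr 1
  unfold Cfg.val
  congr 1
  ext z
  rw [mem_filter, mem_filter, 𝒞.mem_cls]
  constructor
  · rintro ⟨_, h⟩
    exact ⟨mem_univ _, h⟩
  · rintro ⟨_, h⟩
    refine ⟨?_, h⟩
    obtain ⟨a, b, ha, hb, hab⟩ := (𝒞.mem_rels _ _ _).1 hR
    rw [(𝒞.c1_of_c2 hm (h.trans hab.symm)).2, hb]

/-- **CORE** -/
theorem core_of (hPS : PrStepStmt) : CoreStmt := by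
  intro V ι _ _ _ M J w Q L₀ D 𝒞 ρ₀ R T lab G hM5 hw10 hJw hQ1 hQw hL1 hLw hD hne hRB
  classical
  obtain ⟨x, hx⟩ := hne
  have hx1 : 𝒞.c1 x = ρ₀ := (𝒞.mem_cls _ _).1 hx
  have hD1 : 1 ≤ D := le_trans Nat.one_le_two_pow hD
  have iR : Inv2R 𝒞 (fun a b => 𝒞.c2 a b = R) := fun v v' w w' h => by
    simp only [h]
  have iT : Inv2R 𝒞 (fun a b => 𝒞.c2 a b = T) := fun v v' w w' h => by
    simp only [h]
  have hn0 : (0 : ℝ) < (𝒞.cls ρ₀).card := by exact_mod_cast card_pos.2 ⟨x, hx⟩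
  set n : ℝ := ((𝒞.cls ρ₀).card : ℝ) with hn
  have hL0 : (0 : ℝ) < L₀ := by exact_mod_cast hL1
  have vR : n ≤ L₀ * (𝒞.val x R : ℝ) := by rw [hn]; exact_mod_cast G.vR x hx1
  have vT : n ≤ L₀ * (𝒞.val x T : ℝ) := by rw [hn]; exact_mod_cast G.vT x hx1
  set a : ℝ := (2 : ℝ) ^ w with ha
  set s : ℝ := Real.sqrt D with hs
  set d₀ : ℝ := (𝒞.val x R : ℝ) / n with hd₀
  have ha1 : (1024 : ℝ) ≤ a := by
    calc (1024 : ℝ) = 2 ^ 10 := by norm_num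
      _ ≤ a := pow_le_pow_right₀ (by norm_num) hw10
  have hwa : (w : ℝ) ≤ a := by
    rw [ha]; exact_mod_cast (Nat.lt_two_pow_self (n := w)).le
  have hs500 : a ^ 500 ≤ s := by
    rw [hs]
    refine Real.le_sqrt_of_sq_le ?_
    have h1 : (a ^ 500) ^ 2 = (2 : ℝ) ^ (1000 * w) := by
      rw [ha, ← pow_mul, ← pow_mul]
      congr 1
      ring
    rw [h1]
    exact_mod_cast hD
  have hdL : 1 / (L₀ : ℝ) ≤ d₀ := by
    rw [hd₀, div_le_div_iff₀ hL0 hn0]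
    linarith
  have hd0 : 0 < d₀ := lt_of_lt_of_le (by positivity) hdL
  have hdn : d₀ * n = 𝒞.val x R := by rw [hd₀]; field_simp
  obtain ⟨k1, k2, k3, k4, k5, k6, k7, k8, k9⟩ := nums (a := a) (L := L₀) (Q := Q) (s := s)
    (Dr := D) (d₀ := d₀) (Λ := 2 * L₀ * Q) (κ := (a ^ 60)⁻¹) (θ := (a ^ 22)⁻¹) (J := J) ha1
    (by exact_mod_cast hL1) (by rw [ha]; exact_mod_cast hLw) (by exact_mod_cast hQ1)
    (by rw [ha]; exact_mod_cast hQw)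
    (by
      have : ((J + 1 : ℕ) : ℝ) ≤ w := by exact_mod_cast hJw
      push_cast at this
      linarith)
    (by rw [ha]; exact pow_le_pow_right₀ (by norm_num) (by omega))
    hs500 (by rw [hs]; exact Real.sq_sqrt (Nat.cast_nonneg _)) hdL rfl rfl rfl
  have hap : (0 : ℝ) < a := by linarith
  have hcl : ∀ z, 𝒞.c1 z = 𝒞.c1 x → z ∈ 𝒞.cls ρ₀ := fun z hz => by
    rw [𝒞.mem_cls, hz, hx1]
  have him : ∀ v ∈ 𝒞.cls ρ₀, ∀ v' ∈ 𝒞.cls ρ₀,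
      ((𝒞.cls ρ₀).image fun z => 𝒞.c3 v v' z).card ≤ Q ^ 2 := by
    intro v hv v' hv'
    have := H235.image V ι M (J + 1) Q (𝒞.cls ρ₀) 𝒞 (by omega) hRB v hv v' hv' x hx hcl
    rwa [hx1] at this
  have hinit : Inv (m := M + J) (k := M + (J + 2)) 𝒞 ρ₀ R T lab 𝒞 x x
      (1 / (L₀ : ℝ) - ((0 : ℕ) : ℝ) * (a ^ 22)⁻¹) (d₀ - ((0 : ℕ) : ℝ) * (a ^ 22)⁻¹)
      ((1 / 2) ^ 0 * d₀ ^ 2) ((((0 : ℕ) : ℝ) + 1) * (a ^ 22)⁻¹) ((((0 : ℕ) : ℝ) + 1) * (a ^ 22)⁻¹)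
      ((((0 : ℕ) : ℝ) + 1) * (a ^ 22)⁻¹) := by
    have hTcnt : cnt (𝒞.cls (𝒞.c1 x)) (𝒞.cls (𝒞.c1 x)) (fun a b => 𝒞.c2 a b = T) =
        n * 𝒞.val x T := by
      rw [cnt_row 𝒞 (by omega) iT, hx1, row_val 𝒞 (by omega) G.hT]
    have hRcnt : cnt (𝒞.cls (𝒞.c1 x)) (𝒞.cls (𝒞.c1 x)) (fun a b => 𝒞.c2 a b = R) =
        n * 𝒞.val x R := by
      rw [cnt_row 𝒞 (by omega) iR, hx1, row_val 𝒞 (by omega) G.hR]
    have hle : ∀ v : ℝ, n ≤ L₀ * v → 1 / (L₀ : ℝ) * n ≤ v := by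
      intro v hv
      rw [one_div, inv_mul_eq_div, div_le_iff₀ hL0]
      linarith
    refine ⟨fun a b a' b' h => h, fun a b c a' b' c' h => h, hx, hx, ?_, ?_, ?_, ?_, ?_, ?_⟩
    · intro ε
      refine ⟨_, _, _, prMono (H235.stage0 V ι (M + J) D L₀ M (Q ^ 2) 𝒞 ρ₀ R T lab (a ^ 60)⁻¹ x ε G
        (by omega) hD1 hL1 (by positivity) hx1 him) ?_ ?_ ?_⟩
      · rw [Nat.cast_zero, zero_add, one_mul]
        exact k8
      · positivity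
      · rw [Nat.cast_zero, zero_add, one_mul]
        push_cast
        exact k9
    · rw [hTcnt, hx1, Nat.cast_zero, zero_mul, sub_zero]
      have := hle _ vT
      calc 1 / (L₀ : ℝ) * n ^ 2 = n * (1 / L₀ * n) := by ring
        _ ≤ _ := mul_le_mul_of_nonneg_left this hn0.le
    · rw [hRcnt, hx1, Nat.cast_zero, zero_mul, sub_zero]
      have := hle _ vR
      calc 1 / (L₀ : ℝ) * n ^ 2 = n * (1 / L₀ * n) := by ring
        _ ≤ _ := mul_le_mul_of_nonneg_left this hn0.le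
    · rw [hRcnt, hx1, Nat.cast_zero, zero_mul, sub_zero, ← hdn]
      exact le_of_eq (by ring)
    · have h1 : cnt (𝒞.cls (𝒞.c1 x)) (𝒞.cls (𝒞.c1 x)) (fun a b => 𝒞.c2 b a = R) =
          cnt (𝒞.cls (𝒞.c1 x)) (𝒞.cls (𝒞.c1 x)) (fun a b => 𝒞.c2 a b = R) := by
        unfold cnt
        rw [Finset.sum_comm]
      rw [h1, hRcnt, hx1, Nat.cast_zero, zero_mul, sub_zero]
      have := hle _ vR
      calc 1 / (L₀ : ℝ) * (n * n) = n * (1 / L₀ * n) := by ring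
        _ ≤ _ := mul_le_mul_of_nonneg_left this hn0.le
    · unfold coll
      rw [hx1, pow_zero, one_mul, ← mul_pow, hdn]
      have h1 : ∀ z ∈ 𝒞.cls ρ₀, chi (𝒞.c2 x z = R) * (𝒞.val x (𝒞.c2 x z) : ℝ) =
          chi (𝒞.c2 x z = R) * (𝒞.val x R : ℝ) := by
        intro z _
        by_cases h : 𝒞.c2 x z = R
        · rw [h]
        · rw [chi_neg h, zero_mul, zero_mul]
      rw [Finset.sum_congr rfl h1, ← Finset.sum_mul, row_val 𝒞 (by omega) G.hR]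
      exact le_of_eq (by ring)
  have key := core_rec (J := J) hPS G hM5 hD1 (δ₀ := 1 / (L₀ : ℝ)) (d₀ := d₀)
    (Λ := 2 * L₀ * Q) (κ := (a ^ 60)⁻¹) (θ := (a ^ 22)⁻¹) (by positivity)
    (by
      have h1 : (1 : ℝ) ≤ L₀ := by exact_mod_cast hL1
      have h2 : (1 : ℝ) ≤ Q := by exact_mod_cast hQ1
      nlinarith)
    (by positivity)
    (inv_le_one_of_one_le₀ (one_le_pow₀ (by linarith))) (by positivity) hd0 k1 k2
    (by
      refine le_of_eq ?_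
      field_simp)
    k3 (by push_cast; exact k4) (by push_cast; exact k5) k6 k7 J 0 (by omega) 𝒞 hRB x x hinit
  omega

end Vale.Agent.P319.S2.C510
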