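import Vale.Agent.P319.S2.Iface
import Vale.Agent.P319.SC.H235.Star
import Vale.Agent.P319.SC.H235.Triple

/-! P319, block S2: relative mixing. -/

namespace Vale.Agent.P319.S2

open Finset Matrix Vale.Agent.P319.SC Vale.Agent.P319.SC.H323 Vale.Agent.P319.SC.H235

set_option linter.all false

variable {V ι : Type} [Fintype V] [DecidableEq V] [DecidableEq ι] {m k : ℕ}

/-- mixing between subsets of two classes -/
theorem mixI (𝒟 : Cfg V ι k) (hk : 3 ≤ k) {D : ℕ} (hD : BigRank 𝒟 D) {M : Matrix V V ℝ}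
    (hM : 𝒟.Inv2 M) (ρ σ : ι) {A B : Finset V} (hA : A ⊆ 𝒟.cls ρ) (hB : B ⊆ 𝒟.cls σ) {S K : ℝ}
    (hS : ∑ a ∈ 𝒟.cls ρ, ∑ b ∈ 𝒟.cls σ, M a b ^ 2 ≤ S) (hK0 : 0 ≤ K)
    (hK : S * ((A.card : ℝ) * B.card) ≤ K ^ 2) :
    Real.sqrt D * |∑ a ∈ A, ∑ b ∈ B, M a b -
      ((∑ a ∈ 𝒟.cls ρ, ∑ b ∈ 𝒟.cls σ, M a b) / ((𝒟.cls ρ).card * (𝒟.cls σ).card)) *
        ((A.card : ℝ) * B.card)| ≤ K := by
  classical
  set w : V → ℝ := fun a => if a ∈ A then 1 else 0 with hw
  set u : V → ℝ := fun a => if a ∈ B then 1 else 0 with hu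
  have e1 : ∀ (ρ : ι) (A : Finset V), A ⊆ 𝒟.cls ρ → ∀ F : V → ℝ,
      ∑ a ∈ 𝒟.cls ρ, (if a ∈ A then (1 : ℝ) else 0) * F a = ∑ a ∈ A, F a := by
    intro ρ A hA F
    rw [← Finset.sum_subset hA]
    · exact Finset.sum_congr rfl fun a ha => by rw [if_pos ha, one_mul]
    · intro a _ ha
      rw [if_neg ha, zero_mul]
  have w1 : ∑ a ∈ 𝒟.cls ρ, w a ^ 2 = A.card := by
    have := e1 ρ A hA w
    rw [Finset.card_eq_sum_ones, Nat.cast_sum]
    calc ∑ a ∈ 𝒟.cls ρ, w a ^ 2 = ∑ a ∈ 𝒟.cls ρ, (if a ∈ A then (1 : ℝ) else 0) * w a :=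
          Finset.sum_congr rfl fun a _ => by rw [pow_two]
      _ = ∑ a ∈ A, w a := this
      _ = _ := Finset.sum_congr rfl fun a ha => by simp only [hw, if_pos ha, Nat.cast_one]
  have u1 : ∑ a ∈ 𝒟.cls σ, u a ^ 2 = B.card := by
    have := e1 σ B hB u
    rw [Finset.card_eq_sum_ones, Nat.cast_sum]
    calc ∑ a ∈ 𝒟.cls σ, u a ^ 2 = ∑ a ∈ 𝒟.cls σ, (if a ∈ B then (1 : ℝ) else 0) * u a :=
          Finset.sum_congr rfl fun a _ => by rw [pow_two]
      _ = ∑ a ∈ B, u a := this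
      _ = _ := Finset.sum_congr rfl fun a ha => by simp only [hu, if_pos ha, Nat.cast_one]
  have w2 : ∑ a ∈ 𝒟.cls ρ, w a = A.card := by
    rw [← w1]
    refine Finset.sum_congr rfl fun a _ => ?_
    simp only [hw]; split_ifs <;> norm_num
  have u2 : ∑ a ∈ 𝒟.cls σ, u a = B.card := by
    rw [← u1]
    refine Finset.sum_congr rfl fun a _ => ?_
    simp only [hu]; split_ifs <;> norm_num
  have key := mix_abs 𝒟 hk hD hM ρ σ w u hK0 (by
    rw [w1, u1]
    exact (mul_le_mul_of_nonneg_right hS (by positivity)).trans hK)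
  rw [w2, u2] at key
  have h3 : ∑ a ∈ 𝒟.cls ρ, ∑ b ∈ 𝒟.cls σ, w a * M a b * u b = ∑ a ∈ A, ∑ b ∈ B, M a b := by
    rw [← e1 ρ A hA fun a => ∑ b ∈ B, M a b]
    refine Finset.sum_congr rfl fun a _ => ?_
    rw [← e1 σ B hB fun b => M a b, Finset.mul_sum]
    refine Finset.sum_congr rfl fun b _ => ?_
    simp only [hw, hu]; ring
  rwa [h3] at key

/-- real indicator -/
noncomputable def chi (p : Prop) : ℝ := by classical exact if p then 1 else 0

theorem chi_pos {p : Prop} (h : p) : chi p = 1 := by classical exact if_pos h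
theorem chi_neg {p : Prop} (h : ¬ p) : chi p = 0 := by classical exact if_neg h
theorem chi_nonneg (p : Prop) : 0 ≤ chi p := by
  by_cases h : p
  · rw [chi_pos h]; norm_num
  · rw [chi_neg h]
theorem chi_le_one (p : Prop) : chi p ≤ 1 := by
  by_cases h : p
  · rw [chi_pos h]
  · rw [chi_neg h]; norm_num
theorem chi_sq (p : Prop) : chi p ^ 2 = chi p := by
  by_cases h : p
  · rw [chi_pos h]; norm_num
  · rw [chi_neg h]; norm_num
theorem chi_congr {p q : Prop} (h : p ↔ q) : chi p = chi q := by rw [propext h]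

theorem sum_chi (A : Finset V) (p : V → Prop) [DecidablePred p] :
    ∑ a ∈ A, chi (p a) = ((A.filter p).card : ℝ) := by
  rw [Finset.card_filter, Nat.cast_sum]
  refine Finset.sum_congr rfl fun a _ => ?_
  by_cases h : p a
  · rw [chi_pos h, if_pos h, Nat.cast_one]
  · rw [chi_neg h, if_neg h, Nat.cast_zero]

/-- the number of pairs of `P × P'` in the relation `S` -/
noncomputable def cnt (P P' : Finset V) (S : V → V → Prop) : ℝ := ∑ a ∈ P, ∑ b ∈ P', chi (S a b)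

theorem cnt_nonneg (P P' : Finset V) (S : V → V → Prop) : 0 ≤ cnt P P' S :=
  Finset.sum_nonneg fun _ _ => Finset.sum_nonneg fun _ _ => chi_nonneg _

theorem cnt_le (P P' : Finset V) (S : V → V → Prop) : cnt P P' S ≤ (P.card : ℝ) * P'.card := by
  have := sum2_le P P' (fun a b => chi (S a b)) (c := 1) fun a _ b _ => chi_le_one _
  unfold cnt
  simpa using this

/-- **an invariant relation keeps its density** -/
theorem cnt_step (𝒟 : Cfg V ι k) (hk : 3 ≤ k) {D : ℕ} (hD : BigRank 𝒟 D) {S : V → V → Prop}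
    (hS : ∀ a b a' b', 𝒟.c2 a b = 𝒟.c2 a' b' → (S a b ↔ S a' b')) (ρ σ : ι) {A B : Finset V}
    (hA : A ⊆ 𝒟.cls ρ) (hB : B ⊆ 𝒟.cls σ) {Λ : ℝ} (hΛ : 0 ≤ Λ)
    (h1 : ((𝒟.cls ρ).card : ℝ) ≤ Λ * A.card) (h2 : ((𝒟.cls σ).card : ℝ) ≤ Λ * B.card) :
    Real.sqrt D * |cnt A B S - cnt (𝒟.cls ρ) (𝒟.cls σ) S / ((𝒟.cls ρ).card * (𝒟.cls σ).card) *
      ((A.card : ℝ) * B.card)| ≤ Λ * (A.card * B.card) := by
  refine mixI 𝒟 hk hD (M := fun a b => chi (S a b)) ?_ ρ σ hA hB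
    (S := ((𝒟.cls ρ).card : ℝ) * (𝒟.cls σ).card) ?_ (by positivity) ?_
  · intro a b a' b' h
    exact chi_congr (hS _ _ _ _ h)
  · have := sum2_le (𝒟.cls ρ) (𝒟.cls σ) (fun a b => chi (S a b) ^ 2) (c := 1)
      fun a _ b _ => by rw [chi_sq]; exact chi_le_one _
    simpa using this
  · calc ((𝒟.cls ρ).card : ℝ) * (𝒟.cls σ).card * ((A.card : ℝ) * B.card)
        ≤ (Λ * A.card) * (Λ * B.card) * ((A.card : ℝ) * B.card) := by
          refine mul_le_mul_of_nonneg_right ?_ (by positivity)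
          exact mul_le_mul h1 h2 (by positivity) (by positivity)
      _ = (Λ * (A.card * B.card)) ^ 2 := by ring

/-- light points -/
theorem light_count {α : Type*} [DecidableEq α] (P : Finset V) (F : V → α) {N : ℕ}
    (hN : (P.image F).card ≤ N) {θ : ℝ} (hθ : 0 ≤ θ) (p : V → Prop) [DecidablePred p]
    (hp : ∀ z ∈ P, p z → ((P.filter fun t => F t = F z).card : ℝ) ≤ θ) :
    ((P.filter p).card : ℝ) ≤ N * θ := by
  classical
  have h1 : (P.filter p).card = ∑ c ∈ P.image F, ((P.filter p).filter fun t => F t = c).card :=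
    Finset.card_eq_sum_card_fiberwise fun z hz => mem_image_of_mem _ (mem_filter.1 hz).1
  rw [h1, Nat.cast_sum]
  refine le_trans (Finset.sum_le_sum (g := fun _ => θ) fun c _ => ?_) ?_
  · rcases ((P.filter p).filter fun t => F t = c).eq_empty_or_nonempty with h | ⟨z, hz⟩
    · rw [h, card_empty, Nat.cast_zero]; exact hθ
    · rw [mem_filter, mem_filter] at hz
      refine le_trans ?_ (hp z hz.1.1 hz.1.2)
      rw [hz.2]
      exact_mod_cast card_le_card (Finset.filter_subset_filter _ (Finset.filter_subset _ _))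
  · rw [Finset.sum_const, nsmul_eq_mul]
    exact mul_le_mul_of_nonneg_right (by exact_mod_cast hN) hθ

end Vale.Agent.P319.S2
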