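import Vale.Agent.P319.S2.H510.Asm
import Vale.Agent.P319.S2.H86.Small
import Vale.Agent.P319.S2.H575.Avg
import Vale.Agent.P319.S2.H807.Phi
import Vale.Agent.P319.S2.H235.Image

/-! P319, block S2: assembly of CORE, the step. -/

namespace Vale.Agent.P319.S2.C510

open Finset Matrix Vale.Agent.P319.SC Vale.Agent.P319.SC.H323 Vale.Agent.P319.SC.H235
  Vale.Agent.P319.S2

set_option linter.all false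

variable {V ι : Type} [Fintype V] [DecidableEq V] [DecidableEq ι] {m k : ℕ}

theorem prMono {𝒟 : Cfg V ι k} {f : V → V → V → ℝ} {𝒯 : V → V → Prop} {x y : V}
    {η b l η' b' l' : ℝ} {Bad : V → V → Prop} {L L' : V → V → V → Prop}
    (h : PrData 𝒟 f 𝒯 x y η b l Bad L L') (h1 : η ≤ η') (h2 : b ≤ b') (h3 : l ≤ l') :
    PrData 𝒟 f 𝒯 x y η' b' l' Bad L L' where
  bad_inv := h.bad_inv
  L_inv := h.L_inv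
  L'_inv := h.L'_inv
  bad_cnt := h.bad_cnt.trans (mul_le_mul_of_nonneg_right h2 (by positivity))
  L_cnt := fun v hv v' hv' hT hB =>
    (h.L_cnt v hv v' hv' hT hB).trans (mul_le_mul_of_nonneg_right h3 (by positivity))
  L'_cnt := fun v hv v' hv' hT hB =>
    (h.L'_cnt v hv v' hv' hT hB).trans (mul_le_mul_of_nonneg_right h3 (by positivity))
  avg := fun v hv v' hv' hT hB z hz t ht h4 h5 =>
    (h.avg v hv v' hv' hT hB z hz t ht h4 h5).trans (mul_le_mul_of_nonneg_right h1 (by positivity))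

/-- the arithmetic of the potential -/
theorem phi_arith {p p' p₁ q₁ Λ δ φ E D c X : ℝ} (hp : 0 < p) (hp' : 0 < p') (hp₁ : 0 < p₁)
    (hq₁ : 0 < q₁) (hΛ : 1 ≤ Λ) (hδ : 0 < δ) (hE : 0 ≤ E) (hD : 0 < D)
    (h1 : p ≤ Λ * p₁) (h2 : p' ≤ Λ * q₁) (hc : c ≤ φ * p' ^ 2)
    (hC : 3 * Λ ^ 2 / D + E * Λ ^ 4 / (3 * δ) ≤ φ / 8)
    (hX : X ≤ 3 / 8 * (q₁ / p') ^ 2 * c + 3 * (p * p' * q₁) / (D * p₁) +
      p' / (3 * p * p₁ ^ 2) * (E / δ * (p ^ 3 * p'))) :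
    X ≤ φ / 2 * q₁ ^ 2 := by
  have a1 : 3 / 8 * (q₁ / p') ^ 2 * c ≤ 3 / 8 * φ * q₁ ^ 2 := by
    calc 3 / 8 * (q₁ / p') ^ 2 * c ≤ 3 / 8 * (q₁ / p') ^ 2 * (φ * p' ^ 2) :=
          mul_le_mul_of_nonneg_left hc (by positivity)
      _ = 3 / 8 * φ * q₁ ^ 2 := by field_simp
  have a2 : 3 * (p * p' * q₁) / (D * p₁) ≤ 3 * Λ ^ 2 / D * q₁ ^ 2 := by
    rw [div_le_iff₀ (by positivity)]
    calc 3 * (p * p' * q₁) ≤ 3 * ((Λ * p₁) * (Λ * q₁) * q₁) := by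
          refine mul_le_mul_of_nonneg_left ?_ (by norm_num)
          refine mul_le_mul_of_nonneg_right ?_ hq₁.le
          exact mul_le_mul h1 h2 hp'.le (by positivity)
      _ = 3 * Λ ^ 2 / D * q₁ ^ 2 * (D * p₁) := by field_simp
  have a3 : p' / (3 * p * p₁ ^ 2) * (E / δ * (p ^ 3 * p')) ≤ E * Λ ^ 4 / (3 * δ) * q₁ ^ 2 := by
    have b1 : p' / (3 * p * p₁ ^ 2) * (E / δ * (p ^ 3 * p')) =
        E / (3 * δ) * ((p * p') ^ 2 / p₁ ^ 2) := by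
      field_simp
    rw [b1]
    have b2 : (p * p') ^ 2 / p₁ ^ 2 ≤ Λ ^ 4 * q₁ ^ 2 := by
      rw [div_le_iff₀ (by positivity)]
      calc (p * p') ^ 2 ≤ ((Λ * p₁) * (Λ * q₁)) ^ 2 :=
            pow_le_pow_left₀ (by positivity) (mul_le_mul h1 h2 hp'.le (by positivity)) 2
        _ = Λ ^ 4 * q₁ ^ 2 * p₁ ^ 2 := by ring
    calc E / (3 * δ) * ((p * p') ^ 2 / p₁ ^ 2) ≤ E / (3 * δ) * (Λ ^ 4 * q₁ ^ 2) :=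
          mul_le_mul_of_nonneg_left b2 (by positivity)
      _ = E * Λ ^ 4 / (3 * δ) * q₁ ^ 2 := by ring
  have a4 := mul_le_mul_of_nonneg_right hC (by positivity : (0 : ℝ) ≤ q₁ ^ 2)
  have a5 : (3 * Λ ^ 2 / D + E * Λ ^ 4 / (3 * δ)) * q₁ ^ 2 =
      3 * Λ ^ 2 / D * q₁ ^ 2 + E * Λ ^ 4 / (3 * δ) * q₁ ^ 2 := by ring
  have a6 : φ / 2 * q₁ ^ 2 = 3 / 8 * φ * q₁ ^ 2 + φ / 8 * q₁ ^ 2 := by ring
  rw [a5] at a4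
  rw [a6]
  linarith

/-- **the step** -/
theorem inv_step (hPS : PrStepStmt) {M j D L₀ Q : ℕ} {𝒞 : Cfg V ι (m + 2)} {ρ₀ R T : ι}
    {lab : ι → ZMod 3} (G : TG 𝒞 R T lab ρ₀ D L₀ M) (hM : 5 ≤ M) (hD1 : 1 ≤ D)
    (𝒟 : Cfg V ι (M + (j + 1 + 2))) (hRB : RB (𝒞.cls ρ₀) Q M (j + 1 + 2) 𝒟) (x y : V)
    {δ dR φ e Λ κ θ : ℝ} (hI : Inv 𝒞 ρ₀ R T lab 𝒟 x y δ dR φ e e e)
    (he : 0 ≤ e) (hΛ : 1 ≤ Λ) (hκ : 0 < κ) (hκ1 : κ ≤ 1) (hδ : 0 < δ) (hΛδ : (Q : ℝ) ≤ Λ * δ)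
    (n1 : 4 * (Λ / κ) / Real.sqrt D ≤ θ)
    (n2 : Λ / Real.sqrt D + ((Q ^ 2 : ℕ) : ℝ) * κ * Λ ^ 2 ≤ θ)
    (n3 : (Λ / κ) / Real.sqrt D + ((Q ^ 2 : ℕ) : ℝ) * κ ≤ θ) (n4 : Λ / Real.sqrt D ≤ θ)
    (nC : 3 * Λ ^ 2 / D + (13 * e + 8 / Real.sqrt D) * Λ ^ 4 / (3 * δ) ≤ φ / 8) :
    ∃ x₁ y₁ : V, Inv (k := M + (j + 2)) 𝒞 ρ₀ R T lab (𝒟.fix x) x₁ y₁ (δ - θ) (dR - θ) (φ / 2)
      (e + θ) (e + θ) (e + θ) := by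
  classical
  have hm4 := G.hm
  have hE : 0 < Real.sqrt D := Real.sqrt_pos.2 (by exact_mod_cast hD1)
  have hDr : (0 : ℝ) < D := by exact_mod_cast hD1
  have hX : ∀ a b, 𝒟.c1 a = 𝒟.c1 b → a ∈ 𝒞.cls ρ₀ → b ∈ 𝒞.cls ρ₀ := by
    intro a b hab ha
    rw [𝒞.mem_cls] at ha ⊢
    have := hI.r2 _ _ _ _ (𝒟.c2_diag (by omega) hab)
    rw [← (𝒞.c1_of_c2 (by omega) this).1, ha]
  have iR : Inv2R 𝒟 (fun a b => 𝒞.c2 a b = R) := fun v v' w w' h => by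
    simp only [hI.r2 _ _ _ _ h]
  have iT : Inv2R 𝒟 (fun a b => 𝒞.c2 a b = T) := fun v v' w w' h => by
    simp only [hI.r2 _ _ _ _ h]
  have iS : Inv2R 𝒟 (fun a b => 𝒞.c2 b a = R) := fun v v' w w' h => by
    simp only [𝒞.c2_swap (by omega) (hI.r2 _ _ _ _ h)]
  have hBR : BigRank 𝒟 D := G.big _ (by omega) 𝒟
  have hBF : ∀ v v', BigRank ((Cfg.fix (m := M + (j + 1)) (Cfg.fix (m := M + (j + 2)) 𝒟 v)) v') D :=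
    fun v v' => G.big _ (by omega) _
  -- the points
  obtain ⟨x₁, hx₁, hxR, hxb⟩ := big_col 𝒟 (by omega) iR x x
    (hRB.rels (by omega) hI.hx hI.hx) hδ hΛδ (by rw [← pow_two]; exact hI.d1)
  obtain ⟨y₁, hy₁, hyR, hyb⟩ := big_col 𝒟 (by omega) iS x y
    (hRB.rels (by omega) hI.hx hI.hy) hδ hΛδ hI.d3
  have hx₁X : x₁ ∈ 𝒞.cls ρ₀ := hX x x₁ hx₁.symm hI.hx
  have hy₁X : y₁ ∈ 𝒞.cls ρ₀ := hX y y₁ hy₁.symm hI.hy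
  have fc1 : ∀ a, (Cfg.fix (m := M + (j + 2)) 𝒟 x).c1 a = 𝒟.c2 x a := fun a =>
    Cfg.fix_c1 (m := M + (j + 2)) 𝒟 (by omega) x a
  have fc2 : ∀ a b, (Cfg.fix (m := M + (j + 2)) 𝒟 x).c2 a b = 𝒟.c3 x a b := fun a b =>
    Cfg.fix_c2 (m := M + (j + 2)) 𝒟 (by omega) x a b
  have fc3 : ∀ a b c, (Cfg.fix (m := M + (j + 2)) 𝒟 x).c3 a b c = 𝒟.c4 x a b c := fun a b c =>
    Cfg.fix_c3 (m := M + (j + 2)) 𝒟 (by omega) x a b c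
  have fcls : ∀ a, ((Cfg.fix (m := M + (j + 2)) 𝒟 x).cls
      ((Cfg.fix (m := M + (j + 2)) 𝒟 x).c1 a)).card = 𝒟.val x (𝒟.c2 x a) := by
    intro a
    rw [fc1]
    exact (Cfg.val_eq_fix (m := M + (j + 2)) 𝒟 (by omega) x _).symm
  have fsub : ∀ a b, 𝒟.c1 a = 𝒟.c1 b → (Cfg.fix (m := M + (j + 2)) 𝒟 x).cls
      ((Cfg.fix (m := M + (j + 2)) 𝒟 x).c1 a) ⊆ 𝒟.cls (𝒟.c1 b) := by
    intro a b hab z hz
    rw [Cfg.mem_cls, fc1, fc1] at hz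
    rw [𝒟.mem_cls, ← hab]
    exact (𝒟.c1_of_c2 (by omega) hz).2
  set 𝒟' := Cfg.fix (m := M + (j + 2)) 𝒟 x with h𝒟'
  have hxb' : ((𝒟.cls (𝒟.c1 x)).card : ℝ) ≤ Λ * ((𝒟'.cls (𝒟'.c1 x₁)).card : ℝ) := by
    rw [fcls]; exact hxb
  have hyb' : ((𝒟.cls (𝒟.c1 y)).card : ℝ) ≤ Λ * ((𝒟'.cls (𝒟'.c1 y₁)).card : ℝ) := by
    rw [fcls]; exact hyb
  have r2' : ∀ a b a' b', 𝒟'.c2 a b = 𝒟'.c2 a' b' → 𝒞.c2 a b = 𝒞.c2 a' b' := by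
    intro a b a' b' h
    rw [fc2, fc2] at h
    exact hI.r2 _ _ _ _ (𝒟.c3_sub (by omega) h).2.2
  have r3' : ∀ a b c a' b' c', 𝒟'.c3 a b c = 𝒟'.c3 a' b' c' → 𝒞.c3 a b c = 𝒞.c3 a' b' c' := by
    intro a b c a' b' c' h
    rw [fc3, fc3] at h
    exact hI.r3 _ _ _ _ _ _ (𝒟.c4_sub (by omega) h).2.2.2
  have hp : (0 : ℝ) < (𝒟.cls (𝒟.c1 x)).card := by exact_mod_cast 𝒟.cls_pos x
  have hp' : (0 : ℝ) < (𝒟.cls (𝒟.c1 y)).card := by exact_mod_cast 𝒟.cls_pos y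
  have hp₁ : (0 : ℝ) < (𝒟'.cls (𝒟'.c1 x₁)).card := by exact_mod_cast 𝒟'.cls_pos x₁
  have hq₁ : (0 : ℝ) < (𝒟'.cls (𝒟'.c1 y₁)).card := by exact_mod_cast 𝒟'.cls_pos y₁
  -- the densities
  have dens : ∀ {S : V → V → Prop} (_ : Inv2R 𝒟 S) {d : ℝ} (a₁ b₁ a b : V)
      (_ : 𝒟.c1 a₁ = 𝒟.c1 a) (_ : 𝒟.c1 b₁ = 𝒟.c1 b)
      (_ : ((𝒟.cls (𝒟.c1 a)).card : ℝ) ≤ Λ * ((𝒟'.cls (𝒟'.c1 a₁)).card : ℝ))
      (_ : ((𝒟.cls (𝒟.c1 b)).card : ℝ) ≤ Λ * ((𝒟'.cls (𝒟'.c1 b₁)).card : ℝ))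
      (_ : d * (((𝒟.cls (𝒟.c1 a)).card : ℝ) * (𝒟.cls (𝒟.c1 b)).card) ≤
        cnt (𝒟.cls (𝒟.c1 a)) (𝒟.cls (𝒟.c1 b)) S),
      (d - θ) * (((𝒟'.cls (𝒟'.c1 a₁)).card : ℝ) * (𝒟'.cls (𝒟'.c1 b₁)).card) ≤
        cnt (𝒟'.cls (𝒟'.c1 a₁)) (𝒟'.cls (𝒟'.c1 b₁)) S := by
    intro S hS d a₁ b₁ a b ha hb hab1 hab2 h
    have := dens_step 𝒟 (by omega) hD1 hBR hS a b (fsub a₁ a ha) (fsub b₁ b hb)
      (by linarith) hab1 hab2 h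
    refine le_trans (mul_le_mul_of_nonneg_right (by linarith) (by positivity)) this
  -- the image bounds
  have im0 : ∀ v ∈ 𝒟.cls (𝒟.c1 x), ∀ v' ∈ 𝒟.cls (𝒟.c1 x),
      ((𝒟.cls (𝒟.c1 x)).image fun z => 𝒟.c3 v v' z).card ≤ Q ^ 2 := by
    intro v hv v' hv'
    exact H235.image V ι M (j + 2) Q (𝒞.cls ρ₀) 𝒟 (by omega) hRB v
      (hX x v ((𝒟.mem_cls _ _).1 hv).symm hI.hx) v' (hX x v' ((𝒟.mem_cls _ _).1 hv').symm hI.hx)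
      x hI.hx (fun z hz => hX x z hz.symm hI.hx)
  have im1 : ∀ z₁ : V, z₁ ∈ 𝒞.cls ρ₀ → (∀ z, 𝒟'.c1 z = 𝒟'.c1 z₁ → z ∈ 𝒞.cls ρ₀) →
      ∀ v ∈ 𝒟.cls (𝒟.c1 x), ∀ v' ∈ 𝒟.cls (𝒟.c1 x),
      ((𝒟'.cls (𝒟'.c1 z₁)).image fun z => 𝒟'.c3 v v' z).card ≤ Q ^ 2 := by
    intro z₁ hz₁ hcl v hv v' hv'
    exact H235.image V ι M (j + 1) Q (𝒞.cls ρ₀) 𝒟' (by omega) (hRB.2 x hI.hx) v
      (hX x v ((𝒟.mem_cls _ _).1 hv).symm hI.hx) v' (hX x v' ((𝒟.mem_cls _ _).1 hv').symm hI.hx)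
      z₁ hz₁ hcl
  have cl1 : ∀ z, 𝒟'.c1 z = 𝒟'.c1 x₁ → z ∈ 𝒞.cls ρ₀ := fun z hz =>
    hX x z ((𝒟.mem_cls _ _).1 (fsub x₁ x hx₁ ((𝒟'.mem_cls _ _).2 hz))).symm hI.hx
  have cl2 : ∀ z, 𝒟'.c1 z = 𝒟'.c1 y₁ → z ∈ 𝒞.cls ρ₀ := fun z hz =>
    hX y z ((𝒟.mem_cls _ _).1 (fsub y₁ y hy₁ ((𝒟'.mem_cls _ _).2 hz))).symm hI.hy
  have fI : ∀ ε : ZMod 3, Inv3F 𝒟 (labf 𝒞 R lab ε) := fun ε v v' z w w' t h =>
    labf_inv 𝒞 (by omega) R lab ε (hI.r3 _ _ _ _ _ _ h)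
  have hpr : ∀ ε : ZMod 3, ∃ (Bad : V → V → Prop) (L L' : V → V → V → Prop),
      PrData 𝒟' (labf 𝒞 R lab ε) (fun v v' => 𝒞.c2 v v' = T) x₁ y₁ (e + θ) (e + θ) (e + θ)
        Bad L L' := by
    intro ε
    obtain ⟨Bad, L, L', hPr⟩ := hI.pr ε
    obtain ⟨B1, L1, L1', h⟩ := hPS H86.trace H86.newBad avg V ι (M + j) 𝒟 (by omega) D hD1 hBR hBF
      (labf 𝒞 R lab ε) (fI ε) (labf_abs 𝒞 R lab ε) (fun v v' => 𝒞.c2 v v' = T) iT x y x₁ y₁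
      e e e Λ κ (Q ^ 2) he he he hΛ hκ hκ1 hx₁ hy₁ hxb hyb im0
      (im1 x₁ hx₁X cl1) (im1 y₁ hy₁X cl2) Bad L L' hPr
    refine ⟨B1, L1, L1', prMono h (by linarith) ?_ ?_⟩
    · rw [add_assoc]; linarith
    · rw [add_assoc]; linarith
  -- the potential
  have hstar : ∀ ε : ZMod 3, ∑ z ∈ 𝒟.cls (𝒟.c1 x), ∑ t ∈ 𝒟.cls (𝒟.c1 y₁),
      (∑ v ∈ 𝒟.cls (𝒟.c1 x), chi (𝒟.c2 v z = 𝒟.c2 x x₁) * chi (𝒟.c2 v t = 𝒟.c2 x y₁) *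
        ff (fun a b => 𝒞.c2 a b = R) (fun v x y => lab (𝒞.c3 v x y)) ε v z t) ^ 2 ≤
      (13 * e + 8 / Real.sqrt D) / δ * (((𝒟.cls (𝒟.c1 x)).card : ℝ) ^ 3 *
        (𝒟.cls (𝒟.c1 y)).card) := by
    intro ε
    obtain ⟨Bad, L, L', hPr⟩ := hI.pr ε
    have h1 := relstar V ι (M + (j + 1)) 𝒟 (by omega) D hBR hBF (labf 𝒞 R lab ε) (fI ε)
      (labf_abs 𝒞 R lab ε) (fun v v' => 𝒞.c2 v v' = T) iT x y e e e he he he Bad L L' hPr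
      (fun v z => chi (𝒟.c2 v z = 𝒟.c2 x x₁)) (fun v t => chi (𝒟.c2 v t = 𝒟.c2 x y₁))
      (fun v z => by rw [abs_of_nonneg (chi_nonneg _)]; exact chi_le_one _)
      (fun v z => by rw [abs_of_nonneg (chi_nonneg _)]; exact chi_le_one _)
    rw [hy₁]
    simp only [← labf_ff]
    set S := ∑ z ∈ 𝒟.cls (𝒟.c1 x), ∑ t ∈ 𝒟.cls (𝒟.c1 y),
      (∑ v ∈ 𝒟.cls (𝒟.c1 x), chi (𝒟.c2 v z = 𝒟.c2 x x₁) * chi (𝒟.c2 v t = 𝒟.c2 x y₁) *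
        labf 𝒞 R lab ε v z t) ^ 2 with hS
    set p : ℝ := ((𝒟.cls (𝒟.c1 x)).card : ℝ) with hpdef
    set p' : ℝ := ((𝒟.cls (𝒟.c1 y)).card : ℝ) with hp'def
    have hS0 : 0 ≤ S := Finset.sum_nonneg fun _ _ => Finset.sum_nonneg fun _ _ => sq_nonneg _
    have h2 : Real.sqrt D * (δ * p ^ 2 * S) ≤
        (Real.sqrt D * (13 * e) + 8) * (p ^ 5 * p') := by
      refine le_trans ?_ (h1.trans (le_of_eq ?_))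
      · exact mul_le_mul_of_nonneg_left (mul_le_mul_of_nonneg_right hI.dT hS0) hE.le
      · ring
    have h3 : (13 * e + 8 / Real.sqrt D) / δ * (p ^ 3 * p') =
        ((Real.sqrt D * (13 * e) + 8) * (p ^ 5 * p')) / (Real.sqrt D * (δ * p ^ 2)) := by
      field_simp
    rw [h3, le_div_iff₀ (by positivity)]
    linarith
  have hphi := H807.phi V ι (M + (j + 2)) 𝒟 (by omega) D hD1 hBR (fun a b => 𝒞.c2 a b = R) iR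
    (fun v x y => lab (𝒞.c3 v x y)) (fun v v' z w w' t h => by
      simp only [hI.r3 _ _ _ _ _ _ h]) x x₁ y₁ _ hx₁ hxR hyR hstar _ _ _ _ rfl rfl rfl rfl
  rw [hy₁, coll_congr 𝒟 (by omega) iR hx₁ hy₁] at hphi
  refine ⟨x₁, y₁, ⟨r2', r3', hx₁X, hy₁X, hpr, ?_, ?_, ?_, ?_, ?_⟩⟩
  · have := dens iT (d := δ) x₁ x₁ x x hx₁ hx₁ hxb' hxb' (by
      have := hI.dT
      rw [pow_two] at this
      exact this)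
    rw [← pow_two] at this
    exact this
  · have := dens iR (d := δ) x₁ x₁ x x hx₁ hx₁ hxb' hxb' (by
      have := hI.d1
      rw [pow_two] at this
      exact this)
    rw [← pow_two] at this
    exact this
  · exact dens iR x₁ y₁ x y hx₁ hy₁ hxb' hyb' hI.d2
  · exact dens iS x₁ y₁ x y hx₁ hy₁ hxb' hyb' hI.d3
  · have h5 : 0 ≤ 13 * e + 8 / Real.sqrt D := by positivity
    rw [← fcls, ← fcls] at hphi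
    exact phi_arith hp hp' hp₁ hq₁ hΛ hδ h5 hDr hxb' hyb' hI.phi nC hphi

end Vale.Agent.P319.S2.C510
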